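import Vale.Agent.P192.TwoGen

/-!
Bounding the number of relators: from an infinite finitely presented periodic group to a group
with four generators and eight relators that is infinite periodic modulo a finitely generated
central subgroup.
-/

namespace Vale.Agent.P192

universe u v

/-- The kernel of a surjection from a free group of rank two onto a finitely presented group is
the normal closure of finitely many elements. -/
lemma fin2_ker {S : Type u} [Group S] [h : Group.IsFinitelyPresented S]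
    (φ : FreeGroup (Fin 2) →* S) (hφ : Function.Surjective φ) :
    φ.ker.IsFinitelyNormallyGenerated := by
  classical
  obtain ⟨n, ψ, hψ, T, hT, hTk⟩ := h.out
  let u : FreeGroup (Fin n) →* FreeGroup (Fin 2) :=
    FreeGroup.lift fun j => Function.surjInv hφ (ψ (FreeGroup.of j))
  let v : FreeGroup (Fin 2) →* FreeGroup (Fin n) :=
    FreeGroup.lift fun j => Function.surjInv hψ (φ (FreeGroup.of j))
  have hu : φ.comp u = ψ := FreeGroup.ext_hom _ _ fun j => by simp [u, Function.surjInv_eq hφ]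
  have hv : ψ.comp v = φ := FreeGroup.ext_hom _ _ fun j => by simp [v, Function.surjInv_eq hψ]
  let T' : Set (FreeGroup (Fin 2)) :=
    u '' T ∪ Set.range fun j : Fin 2 => u (v (FreeGroup.of j)) * (FreeGroup.of j)⁻¹
  refine ⟨T', (hT.image _).union (Set.finite_range _), le_antisymm ?_ ?_⟩
  · refine Subgroup.normalClosure_le_normal ?_
    rintro x (⟨t, ht, rfl⟩ | ⟨j, rfl⟩)
    · have h0 : t ∈ ψ.ker := hTk ▸ Subgroup.subset_normalClosure ht
      exact (DFunLike.congr_fun hu t).trans h0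
    · have e₁ := DFunLike.congr_fun hu (v (FreeGroup.of j))
      have e₂ := DFunLike.congr_fun hv (FreeGroup.of j)
      simp only [MonoidHom.comp_apply] at e₁ e₂
      simp [e₁, e₂]
  · intro w hw
    let q := QuotientGroup.mk' (Subgroup.normalClosure T')
    have hq : ∀ x ∈ T', q x = 1 := fun x hx =>
      (QuotientGroup.eq_one_iff x).2 (Subgroup.subset_normalClosure hx)
    have h1 : Subgroup.normalClosure T ≤ (q.comp u).ker :=
      Subgroup.normalClosure_le_normal fun t ht => hq _ (Or.inl ⟨t, ht, rfl⟩)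
    have h2 : (q.comp u).comp v = q := FreeGroup.ext_hom _ _ fun j => by
      have := hq _ (Or.inr ⟨j, rfl⟩)
      rw [map_mul, map_inv, mul_inv_eq_one] at this
      exact this
    have h3 : v w ∈ ψ.ker := (DFunLike.congr_fun hv w).trans hw
    have h4 : q (u (v w)) = 1 := h1 (hTk ▸ h3)
    have h5 : q (u (v w)) = q w := DFunLike.congr_fun h2 w
    exact (QuotientGroup.eq_one_iff w).1 (h5.symm.trans h4)

section Core

variable {p : ℕ} [hp : Fact p.Prime] {W : Type v} [Group W]

/-- The data of the construction inside a group `W`. -/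
structure Frame (p : ℕ) (W : Type v) [Group W] where
  /-- the translation -/
  a : W
  /-- the dilation -/
  b : W
  /-- the copy of the free group at the origin -/
  c : FreeGroup (Fin 2) →* W
  /-- a primitive root -/
  g : (ZMod p)ˣ
  hg : ∀ u : (ZMod p)ˣ, u ∈ Subgroup.zpowers g
  ha : a ^ p = 1
  hb : b * a * b⁻¹ = a ^ (g : ZMod p).val
  hbc : ∀ j, Commute b (c (FreeGroup.of j))
  hxx : Commute (c (FreeGroup.of 0)) (a * c (FreeGroup.of 0) * a⁻¹)
  hxy : Commute (c (FreeGroup.of 0)) (a * c (FreeGroup.of 1) * a⁻¹)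
  hyy : Commute (c (FreeGroup.of 1)) (a * c (FreeGroup.of 1) * a⁻¹)
  hgen : Subgroup.closure ({a, b} ∪ (c.range : Set W)) = ⊤

namespace Frame

variable (F : Frame p W)

/-- Powers of `a` indexed by `ZMod p`. -/
def A (i : ZMod p) : W := F.a ^ i.val

lemma A_natCast (n : ℕ) : F.A (n : ZMod p) = F.a ^ n := by
  rw [A, ZMod.val_natCast, ← pow_eq_pow_mod n F.ha]

lemma A_add (i j : ZMod p) : F.A (i + j) = F.A i * F.A j := by
  have h : F.A ((i.val + j.val : ℕ) : ZMod p) = F.A i * F.A j := by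
    rw [A_natCast, pow_add]; rfl
  simpa using h

lemma A_one : F.A 1 = F.a := by simpa using F.A_natCast 1

lemma A_zero : F.A 0 = 1 := by simpa using F.A_natCast 0

lemma b_A (i : ZMod p) : F.b * F.A i * F.b⁻¹ = F.A (F.g * i) := by
  have h : F.A (((F.g : ZMod p).val * i.val : ℕ) : ZMod p) = F.b * F.A i * F.b⁻¹ := by
    rw [A_natCast, pow_mul, ← F.hb, conj_pow]; rfl
  simpa using h.symm

lemma b_c (w : FreeGroup (Fin 2)) : Commute F.b (F.c w) := by
  induction w using FreeGroup.induction_on with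
  | C1 => simp
  | of j => exact F.hbc j
  | inv_of j h => rw [map_inv]; exact h.inv_right
  | mul x y hx hy => rw [map_mul]; exact hx.mul_right hy

/-- The copy of the free group at position `i`. -/
def C (i : ZMod p) : FreeGroup (Fin 2) →* W := (MulAut.conj (F.A i)).toMonoidHom.comp F.c

lemma C_apply (i : ZMod p) (w : FreeGroup (Fin 2)) : F.C i w = F.A i * F.c w * (F.A i)⁻¹ := rfl

lemma C_zero (w : FreeGroup (Fin 2)) : F.C 0 w = F.c w := by simp [C_apply, A_zero]

lemma A_C (t i : ZMod p) (w : FreeGroup (Fin 2)) :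
    F.A t * F.C i w * (F.A t)⁻¹ = F.C (t + i) w := by
  simp [C_apply, A_add, mul_inv_rev, mul_assoc]

lemma a_C (i : ZMod p) (w : FreeGroup (Fin 2)) : F.a * F.C i w * F.a⁻¹ = F.C (1 + i) w := by
  rw [← F.A_C 1 i w, A_one]

lemma b_C (i : ZMod p) (w : FreeGroup (Fin 2)) : F.b * F.C i w * F.b⁻¹ = F.C (F.g * i) w := by
  rw [C_apply, C_apply, ← F.b_A]
  calc _ = (F.b * F.A i * F.b⁻¹) * (F.b * F.c w * F.b⁻¹) * (F.b * F.A i * F.b⁻¹)⁻¹ := by group
    _ = _ := by rw [(F.b_c w).eq, mul_inv_cancel_right]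

lemma units_eq_pow (u : (ZMod p)ˣ) : ∃ n : ℕ, F.g ^ n = u :=
  (Submonoid.mem_powers_iff _ _).1 (mem_powers_iff_mem_zpowers.2 (F.hg u))

/-- Elements at different positions commute. -/
lemma C_comm {i j : ZMod p} (hij : i ≠ j) (u v : FreeGroup (Fin 2)) :
    Commute (F.C i u) (F.C j v) := by
  have step : ∀ (u v : FreeGroup (Fin 2)) (s t : ZMod p), Commute (F.C s u) (F.C t v) →
      (∀ r, Commute (F.C (r + s) u) (F.C (r + t) v)) ∧
        Commute (F.C (F.g * s) u) (F.C (F.g * t) v) := by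
    intro u v s t h
    refine ⟨fun r => ?_, ?_⟩
    · rw [← A_C, ← A_C]; exact Commute.map h (MulAut.conj (F.A r))
    · rw [← b_C, ← b_C]; exact Commute.map h (MulAut.conj F.b)
  have all : ∀ (u v : FreeGroup (Fin 2)), Commute (F.C 0 u) (F.C 1 v) →
      ∀ i j : ZMod p, i ≠ j → Commute (F.C i u) (F.C j v) := by
    intro u v h i j hij
    obtain ⟨n, hn⟩ := F.units_eq_pow (Units.mk0 (j - i) (sub_ne_zero.2 (Ne.symm hij)))
    have hpow : ∀ n : ℕ, Commute (F.C 0 u) (F.C ((F.g ^ n : (ZMod p)ˣ) : ZMod p) v) := by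
      intro n
      induction n with
      | zero => simpa using h
      | succ n ih => simpa [pow_succ'] using (step u v _ _ ih).2
    have := (step u v _ _ (hpow n)).1 i
    simpa [hn] using this
  have h01 : ∀ k l : Fin 2, ∀ i j : ZMod p, i ≠ j →
      Commute (F.C i (FreeGroup.of k)) (F.C j (FreeGroup.of l)) := by
    have hx : ∀ w w', Commute (F.c w) (F.a * F.c w' * F.a⁻¹) →
        Commute (F.C 0 w) (F.C 1 w') := fun w w' h => by
      simpa [C_apply, A_zero, A_one] using h
    intro k l i j hij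
    fin_cases k <;> fin_cases l
    · exact all _ _ (hx _ _ F.hxx) i j hij
    · exact all _ _ (hx _ _ F.hxy) i j hij
    · exact (all _ _ (hx _ _ F.hxy) j i hij.symm).symm
    · exact all _ _ (hx _ _ F.hyy) i j hij
  induction u using FreeGroup.induction_on with
  | C1 => simp
  | of k =>
    induction v using FreeGroup.induction_on with
    | C1 => simp
    | of l => exact h01 k l i j hij
    | inv_of l h => rw [map_inv]; exact h.inv_right
    | mul x y hx hy => rw [map_mul]; exact hx.mul_right hy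
  | inv_of k h => rw [map_inv]; exact h.inv_left
  | mul x y hx hy => rw [map_mul]; exact hx.mul_left hy

lemma C_pairwise :
    Pairwise fun i j : ZMod p => ∀ u v : FreeGroup (Fin 2), Commute (F.C i u) (F.C j v) :=
  fun _ _ h => F.C_comm h

/-- The base homomorphism. -/
def Φ : (ZMod p → FreeGroup (Fin 2)) →* W :=
  MonoidHom.noncommPiCoprod F.C F.C_pairwise

lemma Φ_apply (h : ZMod p → FreeGroup (Fin 2)) :
    F.Φ h = Finset.univ.noncommProd (fun i => F.C i (h i))
      (fun _ _ _ _ hij => F.C_comm hij _ _) :=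
  rfl

lemma Φ_single (i : ZMod p) (w : FreeGroup (Fin 2)) : F.Φ (Pi.mulSingle i w) = F.C i w :=
  MonoidHom.noncommPiCoprod_mulSingle _ _ _

lemma conj_Φ (x : W) (e : ZMod p ≃ ZMod p) (hx : ∀ i w, x * F.C i w * x⁻¹ = F.C (e i) w)
    (h : ZMod p → FreeGroup (Fin 2)) : x * F.Φ h * x⁻¹ = F.Φ fun i => h (e.symm i) := by
  let P : (ZMod p → FreeGroup (Fin 2)) →* (ZMod p → FreeGroup (Fin 2)) :=
    { toFun := fun h i => h (e.symm i), map_one' := rfl, map_mul' := fun _ _ => rfl }
  have : (MulAut.conj x).toMonoidHom.comp F.Φ = F.Φ.comp P := by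
    refine MonoidHom.pi_ext fun i w => ?_
    have hP : P (Pi.mulSingle i w) = Pi.mulSingle (e i) w := by
      funext j
      simp [P, Pi.mulSingle_apply, Equiv.symm_apply_eq]
    simp [hP, Φ_single, hx]
  exact DFunLike.congr_fun this h

lemma a_Φ (h : ZMod p → FreeGroup (Fin 2)) :
    F.a * F.Φ h * F.a⁻¹ = F.Φ fun i => h (i - 1) := by
  refine (F.conj_Φ F.a (Equiv.addLeft 1) F.a_C h).trans (congrArg F.Φ (funext fun i => ?_))
  simp only [Equiv.addLeft_symm, Equiv.coe_addLeft, sub_eq_neg_add]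

lemma b_Φ (h : ZMod p → FreeGroup (Fin 2)) :
    F.b * F.Φ h * F.b⁻¹ = F.Φ fun i => h ((↑(F.g⁻¹) : ZMod p) * i) := by
  refine (F.conj_Φ F.b (Units.mulLeft F.g) F.b_C h).trans (congrArg F.Φ (funext fun i => ?_))
  rfl

variable {f : ZMod p → FreeGroup (Fin 2)}

lemma Φ_affine (hR : F.Φ f = 1) (t u : ZMod p) (hu : u ≠ 0) :
    F.Φ (fun i => f (u * i + t)) = 1 := by
  have h1 : ∀ n : ℕ, F.Φ (fun i => f (i - n)) = 1 := by
    intro n
    induction n with
    | zero => simpa using hR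
    | succ n ih =>
      have := F.a_Φ fun i => f (i - n)
      rw [ih] at this
      simp only [mul_one, mul_inv_cancel] at this
      convert this.symm using 3 with i
      push_cast
      ring_nf
  have h2 : F.Φ (fun i => f (i + t)) = 1 := by simpa using h1 (-t).val
  obtain ⟨n, hn⟩ := F.units_eq_pow (Units.mk0 u hu)⁻¹
  have h3 : ∀ n : ℕ, F.Φ (fun i => f ((↑((F.g ^ n)⁻¹) : ZMod p) * i + t)) = 1 := by
    intro n
    induction n with
    | zero => simpa using h2
    | succ n ih =>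
      have := F.b_Φ fun i => f ((↑((F.g ^ n)⁻¹) : ZMod p) * i + t)
      rw [ih] at this
      simp only [mul_one, mul_inv_cancel] at this
      convert this.symm using 3 with i
      rw [pow_succ', mul_inv_rev, Units.val_mul]
      ring_nf
  have := h3 n
  rw [hn, inv_inv] at this
  exact this

/-- The centre of the base. -/
def cen : Subgroup W := F.Φ.range ⊓ Subgroup.centralizer (F.Φ.range : Set W)

lemma cen_comm {x y : W} (hx : x ∈ F.cen) (hy : y ∈ F.cen) : x * y = y * x :=
  (Subgroup.mem_centralizer_iff.1 hx.2 y hy.1).symm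

lemma C_f_mem (hR : F.Φ f = 1) (i t : ZMod p) : F.C i (f t) ∈ F.cen := by
  refine ⟨⟨_, F.Φ_single i (f t)⟩, Subgroup.mem_centralizer_iff.2 ?_⟩
  rintro _ ⟨h, rfl⟩
  refine (MonoidHom.commute_noncommPiCoprod F.C (fun j w => ?_) h).symm
  by_cases hij : i = j
  · subst hij
    have h0 := F.Φ_affine hR (t - i) 1 one_ne_zero
    let k : ZMod p → FreeGroup (Fin 2) := fun j => f (1 * j + (t - i))
    have hk : k * Pi.mulSingle i w * k⁻¹ = Pi.mulSingle i (f t * w * (f t)⁻¹) := by
      funext j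
      by_cases hj : j = i
      · subst hj; simp [k]
      · simp [hj]
    have := congrArg F.Φ hk
    rw [map_mul, map_mul, map_inv, show F.Φ k = 1 from h0, Φ_single, Φ_single, map_mul, map_mul,
      map_inv, one_mul, inv_one, mul_one] at this
    exact (eq_mul_inv_iff_mul_eq.1 this).symm
  · exact F.C_comm hij _ _

lemma Φ_mem_cen (hR : F.Φ f = 1) {h : ZMod p → FreeGroup (Fin 2)}
    (hh : ∀ i, ∃ t, f t = h i) : F.Φ h ∈ F.cen := by
  rw [Φ_apply]
  refine Subgroup.noncommProd_mem _ _ fun i _ => ?_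
  obtain ⟨t, ht⟩ := hh i
  rw [← ht]
  exact F.C_f_mem hR i t

/-- The central subgroup. -/
def Z (f : ZMod p → FreeGroup (Fin 2)) : Subgroup W :=
  Subgroup.closure (insert (F.b ^ (p - 1)) (Set.range fun t => F.Φ fun _ => f t))

lemma Z_fg (f : ZMod p → FreeGroup (Fin 2)) : (F.Z f).FG :=
  (Subgroup.fg_iff _).2 ⟨_, rfl, (Set.finite_range _).insert _⟩

lemma pow_g : (F.g ^ (p - 1) : (ZMod p)ˣ) = 1 := by
  rw [← ZMod.card_units p]
  exact pow_card_eq_one

lemma bpow_A (n : ℕ) (i : ZMod p) :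
    F.b ^ n * F.A i = F.A (((F.g ^ n : (ZMod p)ˣ) : ZMod p) * i) * F.b ^ n := by
  induction n with
  | zero => simp
  | succ n ih =>
    have hb := F.b_A (((F.g ^ n : (ZMod p)ˣ) : ZMod p) * i)
    rw [mul_inv_eq_iff_eq_mul] at hb
    rw [pow_succ', mul_assoc, ih, ← mul_assoc, hb, mul_assoc, pow_succ', Units.val_mul,
      mul_assoc]

lemma Z_le_center (hR : F.Φ f = 1) : F.Z f ≤ Subgroup.center W := by
  refine (Subgroup.closure_le _).2 ?_
  have key : ∀ z, Commute z F.a → Commute z F.b → (∀ w, Commute z (F.c w)) →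
      z ∈ Subgroup.center W := by
    intro z ha hb hc
    refine Subgroup.mem_center_iff.2 fun y => ?_
    have hy : y ∈ Subgroup.centralizer {z} := by
      have hle : Subgroup.closure ({F.a, F.b} ∪ (F.c.range : Set W)) ≤
          Subgroup.centralizer {z} := by
        rw [Subgroup.closure_le]
        rintro x ((rfl | rfl) | ⟨w, rfl⟩) <;> rw [SetLike.mem_coe, Subgroup.mem_centralizer_iff] <;>
          simp only [Set.mem_singleton_iff, forall_eq]
        exacts [ha.eq, hb.eq, (hc w).eq]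
      exact hle (F.hgen ▸ Subgroup.mem_top y)
    exact (Subgroup.mem_centralizer_iff.1 hy z rfl).symm
  rintro z (rfl | ⟨t, rfl⟩)
  · refine key _ ?_ (Commute.pow_self _ _) (fun w => (F.b_c w).pow_left _)
    have := F.bpow_A (p - 1) 1
    simp only [pow_g, Units.val_one, one_mul, A_one] at this
    exact this
  · refine key _ ?_ ?_ ?_
    · have := F.a_Φ fun _ => f t
      rw [mul_inv_eq_iff_eq_mul] at this
      exact this.symm
    · have := F.b_Φ fun _ => f t
      rw [mul_inv_eq_iff_eq_mul] at this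
      exact this.symm
    · intro w
      have hm : F.Φ (fun _ => f t) ∈ F.cen := F.Φ_mem_cen hR fun _ => ⟨t, rfl⟩
      exact (Subgroup.mem_centralizer_iff.1 hm.2 _ ⟨_, (F.Φ_single 0 w).trans (F.C_zero w)⟩).symm

lemma conj_center {z : W} (hz : z ∈ Subgroup.center W) (x : W) : x * z * x⁻¹ = z := by
  rw [Subgroup.mem_center_iff.1 hz x, mul_inv_cancel_right]

lemma Φ_const_mem_Z (t : ZMod p) : F.Φ (fun _ => f t) ∈ F.Z f :=
  Subgroup.subset_closure (Set.mem_insert_of_mem _ ⟨t, rfl⟩)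

/-- The key computation: the `p`-th power of a relator at one position is central. -/
lemma C_f_pow (hR : F.Φ f = 1) {t₀ : ZMod p} (h₀ : f t₀ = 1) (i t : ZMod p) :
    F.C i (f t) ^ p ∈ F.Z f := by
  classical
  let : CommGroup F.cen :=
    { (inferInstance : Group F.cen) with
      mul_comm := fun x y => Subtype.ext (F.cen_comm x.2 y.2) }
  let M : ZMod p → ZMod p → F.cen := fun i v => ⟨F.C i (f v), F.C_f_mem hR i v⟩
  have hval : ∀ σ : ZMod p → ZMod p, ((∏ i, M i (σ i) : F.cen) : W) = F.Φ fun i => f (σ i) := by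
    intro σ
    rw [Φ_apply, ← Finset.noncommProd_eq_prod]
    exact Finset.map_noncommProd Finset.univ _ _ F.cen.subtype
  have hsplit : ∀ t, (⟨F.Φ fun _ => f t, F.Φ_mem_cen hR fun _ => ⟨t, rfl⟩⟩ : F.cen) =
      M 0 t ^ p * ∏ i ∈ Finset.univ.erase (0 : ZMod p), ∏ v, M i v := by
    intro t
    have h1 : ∏ u : ZMod p, ∏ i, M i (u * i + t) =
        ⟨F.Φ fun _ => f t, F.Φ_mem_cen hR fun _ => ⟨t, rfl⟩⟩ := by
      rw [Fintype.prod_eq_single (0 : ZMod p)]
      · exact Subtype.ext ((hval _).trans (by simp))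
      · intro u hu
        exact Subtype.ext ((hval _).trans (F.Φ_affine hR t u hu))
    rw [← h1, Finset.prod_comm, ← Finset.mul_prod_erase _ _ (Finset.mem_univ (0 : ZMod p))]
    congr 1
    · simp
    · refine Finset.prod_congr rfl fun i hi => ?_
      exact Fintype.prod_equiv
        ((Equiv.mulRight₀ i (Finset.ne_of_mem_erase hi)).trans (Equiv.addRight t)) _ _
        fun u => rfl
  have hrest : ∏ i ∈ Finset.univ.erase (0 : ZMod p), ∏ v, M i v = (1 : F.cen) := by
    have h := hsplit t₀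
    have hM : M 0 t₀ = 1 := Subtype.ext (by simp [M, h₀])
    have hN : F.Φ (fun _ => f t₀) = 1 := by
      rw [h₀]; exact map_one F.Φ
    rw [hM, one_pow, one_mul] at h
    exact h.symm.trans (Subtype.ext hN)
  have h0 : F.C 0 (f t) ^ p ∈ F.Z f := by
    have h := congrArg Subtype.val (hsplit t)
    rw [hrest, mul_one] at h
    have := F.Φ_const_mem_Z (f := f) t
    rw [show F.Φ (fun _ => f t) = F.C 0 (f t) ^ p from h] at this
    exact this
  have hc : F.C i (f t) ^ p = F.A i * F.C 0 (f t) ^ p * (F.A i)⁻¹ := by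
    rw [← conj_pow, A_C, add_zero]
  rw [hc, conj_center (F.Z_le_center hR h0)]
  exact h0

/-- Central base elements with `p`-th power in `Z`. -/
def tor (f : ZMod p → FreeGroup (Fin 2)) : Subgroup W where
  carrier := {x | x ∈ F.cen ∧ x ^ p ∈ F.Z f}
  one_mem' := ⟨one_mem _, by simp [one_mem]⟩
  mul_mem' := fun {x y} hx hy => ⟨mul_mem hx.1 hy.1, by
    rw [Commute.mul_pow (F.cen_comm hx.1 hy.1)]; exact mul_mem hx.2 hy.2⟩
  inv_mem' := fun {x} hx => ⟨inv_mem hx.1, by rw [inv_pow]; exact inv_mem hx.2⟩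

lemma C_mem_tor (hR : F.Φ f = 1) {t₀ : ZMod p} (h₀ : f t₀ = 1) (i : ZMod p)
    {w : FreeGroup (Fin 2)} (hw : w ∈ Subgroup.normalClosure (Set.range f)) :
    F.C i w ∈ F.tor f := by
  have hn : ((F.tor f).comap (F.C i)).Normal := ⟨fun x hx v => by
    change F.C i (v * x * v⁻¹) ∈ F.tor f
    have hc : F.C i v * F.C i x = F.C i x * F.C i v :=
      Subgroup.mem_centralizer_iff.1 hx.1.2 _ ⟨_, F.Φ_single i v⟩
    rw [map_mul, map_mul, map_inv, hc, mul_inv_cancel_right]
    exact hx⟩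
  have : Subgroup.normalClosure (Set.range f) ≤ (F.tor f).comap (F.C i) := by
    refine Subgroup.normalClosure_le_normal ?_
    rintro _ ⟨t, rfl⟩
    exact ⟨F.C_f_mem hR i t, F.C_f_pow hR h₀ i t⟩
  exact this hw

lemma Φ_mem_tor (hR : F.Φ f = 1) {t₀ : ZMod p} (h₀ : f t₀ = 1)
    {h : ZMod p → FreeGroup (Fin 2)} (hh : ∀ i, h i ∈ Subgroup.normalClosure (Set.range f)) :
    F.Φ h ∈ F.tor f := by
  rw [Φ_apply]
  exact Subgroup.noncommProd_mem _ _ fun i _ => F.C_mem_tor hR h₀ i (hh i)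

lemma range_normal : F.Φ.range.Normal := by
  have hle : Subgroup.closure ({F.a, F.b} ∪ (F.c.range : Set W)) ≤
      Subgroup.normalizer (F.Φ.range : Set W) := by
    rw [Subgroup.closure_le]
    rintro x ((rfl | rfl) | ⟨w, rfl⟩) <;> rw [SetLike.mem_coe, Subgroup.mem_normalizer_iff] <;>
      intro y <;> constructor
    · rintro ⟨h, rfl⟩; exact ⟨_, (F.a_Φ h).symm⟩
    · rintro ⟨h, hh⟩
      refine ⟨fun i => h (i + 1), mul_left_cancel (a := F.a) (mul_right_cancel (b := F.a⁻¹) ?_)⟩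
      rw [F.a_Φ, ← hh]
      simp
    · rintro ⟨h, rfl⟩; exact ⟨_, (F.b_Φ h).symm⟩
    · rintro ⟨h, hh⟩
      refine ⟨fun i => h ((F.g : ZMod p) * i),
        mul_left_cancel (a := F.b) (mul_right_cancel (b := F.b⁻¹) ?_)⟩
      rw [F.b_Φ, ← hh]
      exact congrArg F.Φ (funext fun i => by rw [← mul_assoc, Units.mul_inv, one_mul])
    · intro hy
      exact mul_mem (mul_mem ⟨_, (F.Φ_single 0 w).trans (F.C_zero w)⟩ hy)
        (inv_mem ⟨_, (F.Φ_single 0 w).trans (F.C_zero w)⟩)
    · intro hy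
      have h1 : F.c w ∈ F.Φ.range := ⟨_, (F.Φ_single 0 w).trans (F.C_zero w)⟩
      simpa [mul_assoc] using mul_mem (mul_mem (inv_mem h1) hy) h1
  exact Subgroup.normalizer_eq_top_iff.1 (top_le_iff.1 (F.hgen ▸ hle))

/-- Modulo the base and the central subgroup only finitely many cosets remain. -/
lemma exists_pow_mem (hR : F.Φ f = 1) :
    ∃ m : ℕ, 0 < m ∧ ∀ w : W, ∃ z ∈ F.Z f, ∃ h, w ^ m = z * F.Φ h := by
  classical
  have := F.range_normal
  have hZn : (F.Z f).Normal := ⟨fun z hz x => by rwa [conj_center (F.Z_le_center hR hz)]⟩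
  let H := F.Z f ⊔ F.Φ.range
  let q := QuotientGroup.mk' H
  have hq : ∀ {x}, x ∈ H → q x = 1 := fun hx => (QuotientGroup.eq_one_iff _).2 hx
  have hbp : q F.b ^ (p - 1) = 1 := by
    rw [← map_pow]
    exact hq (Subgroup.mem_sup_left (Subgroup.subset_closure (Set.mem_insert _ _)))
  have hp1 : 0 < p - 1 := by have := hp.out.two_le; omega
  let S : Set (W ⧸ H) := Set.range fun x : ZMod p × ℕ => q (F.A x.1) * q F.b ^ x.2
  have hSfin : S.Finite := by
    refine (Set.finite_range fun x : ZMod p × Fin (p - 1) =>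
      q (F.A x.1) * q F.b ^ (x.2 : ℕ)).subset ?_
    rintro _ ⟨⟨i, n⟩, rfl⟩
    exact ⟨(i, ⟨n % (p - 1), Nat.mod_lt _ hp1⟩), by simp [← pow_eq_pow_mod n hbp]⟩
  have hmul : ∀ x ∈ S, ∀ y ∈ S, x * y ∈ S := by
    rintro _ ⟨⟨i, n⟩, rfl⟩ _ ⟨⟨i', n'⟩, rfl⟩
    refine ⟨(i + ((F.g ^ n : (ZMod p)ˣ) : ZMod p) * i', n + n'), ?_⟩
    have h := congrArg q (F.bpow_A n i')
    simp only [map_mul, map_pow] at h
    simp only [A_add, map_mul, pow_add]
    rw [mul_assoc (q (F.A i)), ← mul_assoc _ (q F.b ^ n), ← h]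
    simp [mul_assoc]
  have hone : (1 : W ⧸ H) ∈ S := ⟨(0, 0), by simp [A_zero]⟩
  have hgens : ∀ x ∈ ({F.a, F.b} ∪ (F.c.range : Set W) : Set W), q x ∈ S ∧ (q x)⁻¹ ∈ S := by
    rintro x ((rfl | rfl) | ⟨w, rfl⟩)
    · refine ⟨⟨(1, 0), by simp [A_one]⟩, ⟨(-1, 0), ?_⟩⟩
      have h : F.A (-1) * F.a = 1 := by rw [← A_one, ← A_add, neg_add_cancel, A_zero]
      simp [eq_inv_of_mul_eq_one_left h]
    · refine ⟨⟨(0, 1), by simp [A_zero]⟩, ⟨(0, p - 1 - 1), ?_⟩⟩
      have h : q F.b ^ (p - 1 - 1) * q F.b = 1 := by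
        rw [← pow_succ, show p - 1 - 1 + 1 = p - 1 by omega, hbp]
      simp [A_zero, eq_inv_of_mul_eq_one_left h]
    · have h1 : q (F.c w) = 1 :=
        hq (Subgroup.mem_sup_right ⟨_, (F.Φ_single 0 w).trans (F.C_zero w)⟩)
      simp [h1, hone]
  have hall : ∀ w : W, q w ∈ S := by
    intro w
    have hw : w ∈ Subgroup.closure ({F.a, F.b} ∪ (F.c.range : Set W)) :=
      F.hgen ▸ Subgroup.mem_top w
    induction hw using Subgroup.closure_induction_right with
    | one => rwa [map_one]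
    | mul_right x _ y hy hx => rw [map_mul]; exact hmul _ hx _ (hgens y hy).1
    | mul_inv_cancel x _ y hy hx => rw [map_mul, map_inv]; exact hmul _ hx _ (hgens y hy).2
  have : Finite (W ⧸ H) := by
    refine Set.finite_univ_iff.1 (hSfin.subset fun x _ => ?_)
    obtain ⟨w, rfl⟩ := QuotientGroup.mk'_surjective H x
    exact hall w
  refine ⟨Nat.card (W ⧸ H), Nat.card_pos, fun w => ?_⟩
  have hwH : w ^ Nat.card (W ⧸ H) ∈ H :=
    (QuotientGroup.eq_one_iff _).1 ((map_pow q w _).trans pow_card_eq_one')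
  obtain ⟨z, hz, y, ⟨h, rfl⟩, he⟩ := (Subgroup.mem_sup_of_normal_right).1 hwH
  exact ⟨z, hz, h, he.symm⟩

end Frame

end Core

end Vale.Agent.P192
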