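import Vale.Agent.P192.FinFill
import Vale.Agent.P196.Gap

/-!
Infinite orbits with bounded cuts, or with balls growing at most linearly, give virtual
surjections onto `ℤ`.
-/

namespace Vale.Agent.P192

open Vale.Agent.P196

variable {G : Type*} [Group G] [Group.IsFinitelyPresented G]

omit [Group.IsFinitelyPresented G] in
theorem exists_inj {X : Type*} {S : Set X} (T : Finset X) (hS : S ⊆ ↑T) {B : ℕ} (hB : T.card ≤ B) :
    ∃ e : X → Fin (B + 1), Set.InjOn e S := by
  classical
  refine ⟨fun z => if h : z ∈ T then ⟨(T.equivFin ⟨z, h⟩).1, by omega⟩ else 0,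
    fun a ha b hb hab => ?_⟩
  have ha' : a ∈ T := hS ha
  have hb' : b ∈ T := hS hb
  simp only [ha', hb', ↓reduceDIte, Fin.mk.injEq] at hab
  exact congrArg Subtype.val (T.equivFin.injective (Fin.ext hab))

omit [Group.IsFinitelyPresented G] in
theorem boundedCuts_orbit {X : Type*} [MulAction G X] (x : X) (hX : BoundedCuts G X) :
    BoundedCuts G (MulAction.orbit G x) := by
  classical
  intro E
  obtain ⟨B, hB⟩ := hX E
  refine ⟨B, fun A => ?_⟩
  obtain ⟨F, N, hAF, hN, hbd⟩ := hB (A.image Subtype.val)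
  refine ⟨F.subtype (· ∈ MulAction.orbit G x), N.subtype (· ∈ MulAction.orbit G x), fun a ha => ?_,
    ?_, fun y g hg hne => ?_⟩
  · exact Finset.mem_subtype.2 (hAF (Finset.mem_image_of_mem _ ha))
  · rw [Finset.card_subtype]; exact (Finset.card_filter_le _ _).trans hN
  · refine Finset.mem_subtype.2 (hbd y.1 g hg fun h => hne ?_)
    simpa [Finset.mem_subtype] using h

/-- An infinite transitive action with bounded cuts. -/
theorem virtZ_of_transitive {X : Type*} [MulAction G X] [MulAction.IsPretransitive G X]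
    [Infinite X] (hX : BoundedCuts G X) : VirtZ G := by
  classical
  obtain ⟨d, φ, hφ, R, hR, hker⟩ := Group.IsFinitelyPresented.out (G := G)
  obtain ⟨L, hL⟩ : ∃ L, ∀ r ∈ R, (FreeGroup.toWord r).length ≤ L :=
    ⟨hR.toFinset.sup fun r => (FreeGroup.toWord r).length, fun r hr =>
      Finset.le_sup (f := fun r => (FreeGroup.toWord r).length) (hR.mem_toFinset.2 hr)⟩
  obtain ⟨B, hB⟩ := hX (Finset.univ.image fun l : Fin d × Bool => ev φ [l])
  set Wd := (List.finite_length_le (Fin d × Bool) (L + 2)).toFinset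
  set B' := Wd.card * B
  obtain ⟨x₀⟩ : Nonempty X := inferInstance
  have hsucc : ∀ F : Finset X, ∃ F' : Finset X, F ⊆ F' ∧ x₀ ∈ F' ∧
      (∀ (w : List (Fin d × Bool)) (x : X), w.length ≤ L + 2 →
        x ∈ nbd φ L (fill hφ F) → ev φ w • x ∈ F') ∧
      ∃ e : X → Fin (B' + 1), Set.InjOn e (nbd φ L (fill hφ F')) := by
    intro F
    have hn : (nbd φ L (fill hφ F)).Finite := by
      refine ((List.finite_length_le (Fin d × Bool) (L + 2)).image2 (fun v c => ev φ v • c)
        (edge_finite (φ := φ) F)).subset ?_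
      intro x hx
      obtain ⟨v, c, hv, hc, rfl⟩ := nbd_fill hx
      exact Set.mem_image2_of_mem hv hc
    have hA := ((finite_ball φ (L + 2) _ hn).union (F.finite_toSet)).union (Set.finite_singleton x₀)
    obtain ⟨F', N, hsub, hN, hbd⟩ := hB hA.toFinset
    refine ⟨F', fun z hz => hsub (by simp [hz]), hsub (by simp), fun w x hw hx =>
      hsub (hA.mem_toFinset.2 (Or.inl (Or.inl ⟨w, hw, x, hx, rfl⟩))),
      exists_inj (Finset.image₂ (fun v c => ev φ v • c) Wd N) ?_
        ((Finset.card_image₂_le _ _ _).trans (Nat.mul_le_mul_left _ hN))⟩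
    intro x hx
    obtain ⟨v, c, hv, ⟨l, hl⟩, rfl⟩ := nbd_fill hx
    exact Finset.mem_coe.2 (Finset.mem_image₂.2 ⟨v, (List.finite_length_le _ _).mem_toFinset.2 hv,
      c, hbd c _ (Finset.mem_image.2 ⟨l, Finset.mem_univ _, rfl⟩) hl, rfl⟩)
  choose nxt hsub hx₀ hball emb hemb using hsucc
  let seq : ℕ → Finset X := fun n => nxt^[n] ∅
  have hseq : ∀ n, seq (n + 1) = nxt (seq n) := fun n => Function.iterate_succ_apply' nxt n ∅
  have hmono : Monotone seq := monotone_nat_of_le_succ fun n => by rw [hseq]; exact hsub _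
  obtain ⟨a, b, hab, heq⟩ : ∃ a b, a < b ∧
      pat φ L B' (fill hφ (seq (a + 1))) (emb (seq a)) =
        pat φ L B' (fill hφ (seq (b + 1))) (emb (seq b)) := by
    obtain ⟨a, b, hne, h⟩ := Finite.exists_ne_map_eq_of_infinite
      (fun n => pat φ L B' (fill hφ (seq (n + 1))) (emb (seq n)))
    rcases lt_or_gt_of_ne hne with h' | h'
    · exact ⟨a, b, h', h⟩
    · exact ⟨b, a, h', h.symm⟩
  have hle : seq (a + 1 + 1) ⊆ seq (b + 1) := hmono (by omega)
  refine virtZ_of_fill hφ hker hL ⟨x₀, by rw [hseq]; exact hx₀ _⟩ (hmono (by omega))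
    (fun w x hw hx => hle (by rw [hseq (a + 1)]; exact hball _ w x hw hx)) ?_ ?_ heq
  · rw [hseq]; exact hemb _
  · rw [hseq]; exact hemb _

/-- An infinite orbit with bounded cuts. -/
theorem virtZ_of_boundedCuts {X : Type*} [MulAction G X] (hX : BoundedCuts G X) {x : X}
    (hx : (MulAction.orbit G x).Infinite) : VirtZ G := by
  haveI : Infinite (MulAction.orbit G x) := hx.to_subtype
  exact virtZ_of_transitive (boundedCuts_orbit x hX)

omit [Group.IsFinitelyPresented G] in
theorem ballOrbit_val {X : Type*} [MulAction G X] (S : Set G) (n : ℕ) (x : X) :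
    ballOrbit S n x = Subtype.val ''
      ballOrbit S n (⟨x, MulAction.mem_orbit_self x⟩ : MulAction.orbit G x) := by
  ext y
  constructor
  · rintro ⟨l, h1, h2, rfl⟩
    exact ⟨l.prod • ⟨x, MulAction.mem_orbit_self x⟩, ⟨l, h1, h2, rfl⟩, rfl⟩
  · rintro ⟨z, ⟨l, h1, h2, rfl⟩, rfl⟩
    exact ⟨l, h1, h2, rfl⟩

/-- The windows of a big ball contain two with the same local picture. -/
theorem gap_core (S : Finset G) (hS : Subgroup.closure (S : Set G) = ⊤) {d : ℕ}
    (φ : FreeGroup (Fin d) →* G) (L : ℕ) :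
    ∃ c : ℕ, ∀ (X : Type*) [MulAction G X] (x : X) (fl : Finset X → Finset X)
      (_hfl : ∀ (F : Finset X), ∀ y ∈ nbd φ L (fl F), ∃ (v : List (Fin d × Bool)) (c : X),
        v.length ≤ L + 2 ∧ c ∈ edge φ F ∧ y = ev φ v • c) (n : ℕ),
      (∀ (F F' : Finset X), F.Nonempty → F ⊆ F' → (↑F' : Set X) ⊆ ballOrbit (S : Set G) n x →
        (∀ (w : List (Fin d × Bool)) (y : X), w.length ≤ L + 2 →
          y ∈ nbd φ L (fl F) → ev φ w • y ∈ F') →
        ∀ (B : ℕ) (e e' : X → Fin (B + 1)), Set.InjOn e (nbd φ L (fl F)) →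
          Set.InjOn e' (nbd φ L (fl F')) →
          pat φ L B (fl F) e = pat φ L B (fl F') e' → False) →
      n ≤ ((ballOrbit (S : Set G) n x).ncard / n + 2) ^
        (c * ((ballOrbit (S : Set G) n x).ncard / n + 2)) := by
  classical
  obtain ⟨D, hD⟩ := exists_radius hS
    ((List.finite_length_le (Fin d × Bool) (L + 2)).toFinset.image (ev φ))
  set W := 4 * D + 4 with hWdef
  refine ⟨9 * W + 10 * W + (5 * W + 1) * (10 * W * d), fun X _ x fl hfl n hfalse => ?_⟩
  have hmove : ∀ (w : List (Fin d × Bool)), w.length ≤ L + 2 → ∀ (m : ℕ) (y : X),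
      y ∈ ballOrbit (S : Set G) m x → ev φ w • y ∈ ballOrbit (S : Set G) (m + D) x := by
    rintro w hw m y ⟨u, h1, h2, rfl⟩
    obtain ⟨l, hl1, hl2, hl3⟩ := hD (ev φ w)
      (Finset.mem_image.2 ⟨w, (List.finite_length_le _ _).mem_toFinset.2 hw, rfl⟩)
    exact ⟨l ++ u, by simp; omega, fun s hs => (List.mem_append.1 hs).elim (hl2 s) (h2 s),
      by rw [List.prod_append, hl3, mul_smul]⟩
  have hmove' : ∀ (w : List (Fin d × Bool)), w.length ≤ L + 2 → ∀ (m : ℕ) (y : X),
      ev φ w • y ∈ ballOrbit (S : Set G) m x → y ∈ ballOrbit (S : Set G) (m + D) x := by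
    intro w hw m y hy
    have := hmove (FreeGroup.invRev w) (by simpa using hw) m _ hy
    rwa [ev_invRev, inv_smul_smul] at this
  set b := fun m => (ballOrbit (S : Set G) m x).ncard with hb
  set q := b n / n + 2 with hq
  show n ≤ q ^ _
  refine le_trans ?_ (card_pat'_le d W q (Nat.le_add_left 2 _) (by omega))
  set K := n / W with hK
  set P := Fintype.card (Pat' d (4 * W * q))
  suffices hKP : K ≤ 2 * P by
    have h := Nat.div_add_mod n W
    rw [← hK] at h
    have hr := Nat.mod_lt n (show 0 < W by omega)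
    have h2 : W * K ≤ W * (2 * P) := Nat.mul_le_mul_left W hKP
    nlinarith
  by_contra hKP
  let win : ℕ → ℕ := fun k => b (k * W + W) - b (k * W)
  have hbmono : ∀ {m m' : ℕ}, m ≤ m' → b m ≤ b m' := fun h =>
    Set.ncard_le_ncard (ballOrbit_mono _ h x) (ballOrbit_finite S _ x)
  have hsum : ∀ k, (Finset.range k).sum win ≤ b (k * W) := by
    intro k
    induction k with
    | zero => simp
    | succ k ih =>
      rw [Finset.sum_range_succ]
      simp only [win] at ih ⊢
      have h1 : k * W + W = (k + 1) * W := by ring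
      have h2 := hbmono (show k * W ≤ (k + 1) * W by nlinarith)
      rw [h1]
      omega
  let good := (Finset.range K).filter fun k => win k ≤ 4 * W * q
  let bad := (Finset.range K).filter fun k => ¬ win k ≤ 4 * W * q
  have hgb : good.card + bad.card = K := by
    rw [Finset.card_filter_add_card_filter_not, Finset.card_range]
  have hKW : K * W ≤ n := Nat.div_mul_le_self n W
  have hbad : bad.card * (4 * W * q) ≤ q * (2 * K * W) := by
    calc bad.card * (4 * W * q) ≤ bad.sum win := by
          rw [← smul_eq_mul]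
          exact Finset.card_nsmul_le_sum _ _ _ fun k hk => by
            have := (Finset.mem_filter.1 hk).2; omega
      _ ≤ (Finset.range K).sum win :=
          Finset.sum_le_sum_of_subset (Finset.filter_subset _ _)
      _ ≤ b (K * W) := hsum K
      _ ≤ b n := hbmono hKW
      _ ≤ q * (2 * K * W) := by
          have hn2 : n ≤ 2 * K * W := by
            have h := Nat.div_add_mod n W
            rw [← hK] at h
            have hr := Nat.mod_lt n (show 0 < W by omega)
            have : 1 ≤ K := by omega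
            nlinarith
          have hn0 : 0 < n := by
            rcases Nat.eq_zero_or_pos n with rfl | h
            · simp [hK] at hKP
            · exact h
          have h := Nat.div_add_mod (b n) n
          have hr := Nat.mod_lt (b n) hn0
          have hqn : b n ≤ q * n := by rw [hq]; nlinarith
          exact hqn.trans (Nat.mul_le_mul_left q hn2)
  have hbad2 : 2 * bad.card ≤ K := by
    have h1 : 2 * bad.card * (2 * W * q) ≤ K * (2 * W * q) := by nlinarith
    exact Nat.le_of_mul_le_mul_right h1 (by positivity)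
  have hgood : P < good.card := by omega
  let T : ℕ → ℕ := fun k => k * W + 2 * D + 1
  let F : ℕ → Finset X := fun k => (ballOrbit_finite S (T k) x).toFinset
  have hnb : ∀ k, nbd φ L (fl (F k)) ⊆
      ballOrbit (S : Set G) (T k + 2 * D) x \ ballOrbit (S : Set G) (k * W) x := by
    intro k y hy
    obtain ⟨v, c, hv, ⟨l, hl⟩, rfl⟩ := hfl _ y hy
    simp only [F, Set.Finite.mem_toFinset] at hl
    have hl1 : [l].length ≤ L + 2 := by simp
    have hc1 : c ∈ ballOrbit (S : Set G) (T k + D) x := by
      by_cases hin : c ∈ ballOrbit (S : Set G) (T k) x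
      · exact ballOrbit_mono _ (by omega) x hin
      · exact hmove' [l] hl1 _ _ (by by_contra h; exact hl (iff_of_false hin h))
    refine ⟨ballOrbit_mono _ (by omega) x (hmove v hv _ _ hc1), fun h => ?_⟩
    have h2 := hmove' v hv _ _ h
    exact hl (iff_of_true (ballOrbit_mono _ (show k * W + D ≤ T k by simp only [T]; omega) x h2)
      (ballOrbit_mono _ (show k * W + D + D ≤ T k by simp only [T]; omega) x (hmove [l] hl1 _ _ h2)))
  have hemb : ∀ k ∈ good, ∃ e : X → Fin (4 * W * q + 1),
      Set.InjOn e (nbd φ L (fl (F k))) := by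
    intro k hk
    have hwk := (Finset.mem_filter.1 hk).2
    let U := ballOrbit (S : Set G) (k * W + W) x \ ballOrbit (S : Set G) (k * W) x
    have hUf : U.Finite := (ballOrbit_finite S _ x).diff
    have hU : hUf.toFinset.card ≤ 4 * W * q := by
      rw [← Set.ncard_eq_toFinset_card U hUf, Set.ncard_sdiff (ballOrbit_mono _ (by omega) x)
        (ballOrbit_finite S _ x)]
      exact hwk
    refine exists_inj hUf.toFinset ?_ hU
    rw [Set.Finite.coe_toFinset]
    exact fun y hy => ⟨ballOrbit_mono _ (by simp only [T]; omega) x (hnb k hy).1, (hnb k hy).2⟩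
  choose e he using hemb
  obtain ⟨⟨a, ha⟩, -, ⟨c, hc⟩, -, hne, heq⟩ := Finset.exists_ne_map_eq_of_card_lt_of_maps_to
    (s := good.attach) (t := (Finset.univ : Finset (Pat' d (4 * W * q))))
    (f := fun k => pat' φ L _ (fl (F k.1)) (e k.1 k.2))
    (by rwa [Finset.card_attach, Finset.card_univ]) (fun _ _ => Finset.mem_univ _)
  have main : ∀ a c (ha : a ∈ good) (hc : c ∈ good), a < c →
      pat' φ L _ (fl (F a)) (e a ha) = pat' φ L _ (fl (F c)) (e c hc) → False := by
    intro a c ha hc hac heq
    have : Nonempty X := ⟨x⟩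
    have hT : T a + W ≤ T c := by
      have : (a + 1) * W ≤ c * W := Nat.mul_le_mul_right W hac
      simp only [T]; rw [Nat.succ_mul] at this; omega
    have hTn : T c ≤ n := by
      have h1 : c < K := Finset.mem_range.1 (Finset.mem_filter.1 hc).1
      have h2 : (c + 1) * W ≤ K * W := Nat.mul_le_mul_right W h1
      rw [Nat.succ_mul] at h2
      simp only [T]; omega
    refine hfalse (F a) (F c) ⟨x, ?_⟩ ?_ ?_ (fun w y hw hy => ?_) _ _ _ (he a ha) (he c hc)
      (pat_of_pat' φ (he a ha) (he c hc) heq)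
    · exact (ballOrbit_finite S _ x).mem_toFinset.2 ⟨[], by simp, by simp, by simp⟩
    · intro y hy
      simp only [F, Set.Finite.mem_toFinset] at hy ⊢
      exact ballOrbit_mono _ (by omega) x hy
    · intro y hy
      simp only [F, Finset.mem_coe, Set.Finite.mem_toFinset] at hy
      exact ballOrbit_mono _ hTn x hy
    · simp only [F, Set.Finite.mem_toFinset]
      exact ballOrbit_mono _ (by omega) x (hmove w hw _ _ (hnb a hy).1)
  rcases lt_or_gt_of_ne (fun h : a = c => hne (Subtype.ext h)) with h | h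
  · exact main a c ha hc h heq
  · exact main c a hc ha h heq.symm

/-- Linear growth along a sequence. -/
theorem virtZ_of_linear {X : Type*} [MulAction G X] (S : Finset G)
    (hS : Subgroup.closure (S : Set G) = ⊤) (x : X) (hx : (MulAction.orbit G x).Infinite)
    (C : ℕ) (hC : ∀ N : ℕ, ∃ n, N ≤ n ∧ (ballOrbit (S : Set G) n x).ncard ≤ C * n) : VirtZ G := by
  haveI : Infinite (MulAction.orbit G x) := hx.to_subtype
  exact virtZ_of_transitive (boundedCuts_of_linear S hS x C hC)

/-- The growth gap for infinite orbits. -/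
theorem gap_orbit (hG : ¬ VirtZ G) {X : Type*} [MulAction G X] (S : Finset G)
    (hS : Subgroup.closure (S : Set G) = ⊤) (x : X) (hx : (MulAction.orbit G x).Infinite) :
    ∃ c : ℕ, ∀ n : ℕ, n ≤ ((ballOrbit (S : Set G) n x).ncard / n + 2) ^
      (c * ((ballOrbit (S : Set G) n x).ncard / n + 2)) := by
  haveI : Infinite (MulAction.orbit G x) := hx.to_subtype
  obtain ⟨d, φ, hφ, R, hR, hker⟩ := Group.IsFinitelyPresented.out (G := G)
  obtain ⟨L, hL⟩ : ∃ L, ∀ r ∈ R, (FreeGroup.toWord r).length ≤ L :=
    ⟨hR.toFinset.sup fun r => (FreeGroup.toWord r).length, fun r hr =>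
      Finset.le_sup (f := fun r => (FreeGroup.toWord r).length) (hR.mem_toFinset.2 hr)⟩
  obtain ⟨c, hc⟩ := gap_core S hS φ L
  refine ⟨c, fun n => ?_⟩
  rw [ballOrbit_val, Set.ncard_image_of_injective _ Subtype.val_injective]
  exact hc _ _ (fill hφ) (fun F y hy => nbd_fill hy) n
    fun F F' hne hsub _ hball B e e' he he' hp =>
      hG (virtZ_of_fill hφ hker hL hne hsub hball he he' hp)

/-- Finite orbits whose balls grow at most linearly have bounded size. -/
theorem finite_orbit_bound (hG : ¬ VirtZ G) (S : Finset G)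
    (hS : Subgroup.closure (S : Set G) = ⊤) (C : ℕ) :
    ∃ N : ℕ, ∀ (X : Type) [MulAction G X] (x : X),
      (∀ n, (ballOrbit (S : Set G) n x).ncard ≤ C * (n + 1)) →
      (MulAction.orbit G x).Finite ∧ (MulAction.orbit G x).ncard ≤ N := by
  classical
  obtain ⟨d, φ, hφ, R, hR, hker⟩ := Group.IsFinitelyPresented.out (G := G)
  obtain ⟨L, hL⟩ : ∃ L, ∀ r ∈ R, (FreeGroup.toWord r).length ≤ L :=
    ⟨hR.toFinset.sup fun r => (FreeGroup.toWord r).length, fun r hr =>
      Finset.le_sup (f := fun r => (FreeGroup.toWord r).length) (hR.mem_toFinset.2 hr)⟩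
  obtain ⟨c, hc⟩ := gap_core S hS φ L
  refine ⟨C * ((2 * C + 2) ^ (c * (2 * C + 2)) + 2), fun X _ x hx => ?_⟩
  set n := (2 * C + 2) ^ (c * (2 * C + 2)) + 1 with hn
  by_cases hfin : (MulAction.orbit G x).Infinite
  · exact absurd (virtZ_of_linear S hS x hfin (2 * C) fun m =>
      ⟨m + 1, by omega, (hx _).trans (by nlinarith)⟩) hG
  rw [Set.not_infinite] at hfin
  refine ⟨hfin, ?_⟩
  haveI : Finite (MulAction.orbit G x) := hfin
  by_cases hall : ∀ z : MulAction.orbit G x,
      z ∈ ballOrbit (S : Set G) n (⟨x, MulAction.mem_orbit_self x⟩ : MulAction.orbit G x)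
  · refine le_trans (le_of_eq ?_) (hx n)
    rw [ballOrbit_val, Set.eq_univ_of_forall hall, Set.image_univ, Subtype.range_coe]
  · exfalso
    push Not at hall
    obtain ⟨z, hz⟩ := hall
    have h := hc _ (⟨x, MulAction.mem_orbit_self x⟩ : MulAction.orbit G x) (fillT φ z)
      (fun F y hy => nbd_fillT hy) n fun F F' hne hsub hin hball B e e' he he' hp =>
        hG (virtZ_of_fillT hφ hker hL hne hsub (fun h => hz (hin h)) hball he he' hp)
    set q := (ballOrbit (S : Set G) n
      (⟨x, MulAction.mem_orbit_self x⟩ : MulAction.orbit G x)).ncard / n + 2 with hq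
    have hq2 : q ≤ 2 * C + 2 := by
      have h1 : (ballOrbit (S : Set G) n
          (⟨x, MulAction.mem_orbit_self x⟩ : MulAction.orbit G x)).ncard ≤ 2 * C * n := by
        rw [← Set.ncard_image_of_injective _ Subtype.val_injective, ← ballOrbit_val]
        refine (hx n).trans ?_
        calc C * (n + 1) ≤ C * (2 * n) := Nat.mul_le_mul_left C (by omega)
          _ = 2 * C * n := by ring
      have : (ballOrbit (S : Set G) n
          (⟨x, MulAction.mem_orbit_self x⟩ : MulAction.orbit G x)).ncard / n ≤ 2 * C :=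
        Nat.div_le_of_le_mul (by rw [Nat.mul_comm n]; exact h1)
      omega
    have : q ^ (c * q) ≤ (2 * C + 2) ^ (c * (2 * C + 2)) :=
      (Nat.pow_le_pow_left hq2 _).trans
        (Nat.pow_le_pow_right (by omega) (Nat.mul_le_mul_left c hq2))
    omega

end Vale.Agent.P192
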