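import Vale.Agent.P192.Bounded

/-!
The eight-relator presentation and its quotient by a finitely generated central subgroup.
-/

namespace Vale.Agent.P192

open FreeGroup (of lift)
open scoped commutatorElement

universe u

/-- The action of permutations on a power of a group. -/
def permAct (p : ℕ) (S : Type u) [Group S] :
    Equiv.Perm (ZMod p) →* MulAut (ZMod p → S) where
  toFun σ :=
    { toFun := fun h i => h (σ.symm i)
      invFun := fun h i => h (σ i)
      left_inv := fun h => funext fun i => by simp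
      right_inv := fun h => funext fun i => by simp
      map_mul' := fun _ _ => rfl }
  map_one' := rfl
  map_mul' := fun _ _ => rfl

lemma permAct_apply (p : ℕ) (S : Type u) [Group S] (σ : Equiv.Perm (ZMod p)) (h : ZMod p → S)
    (i : ZMod p) : permAct p S σ h i = h (σ.symm i) := rfl

lemma permAct_single (p : ℕ) (S : Type u) [Group S] (σ : Equiv.Perm (ZMod p)) (i : ZMod p)
    (s : S) : permAct p S σ (Pi.mulSingle i s) = Pi.mulSingle (σ i) s := by
  funext k
  simp [permAct_apply, Pi.mulSingle_apply, Equiv.symm_apply_eq]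

lemma addLeft_pow {p : ℕ} (n : ℕ) :
    (Equiv.addLeft (1 : ZMod p) : Equiv.Perm (ZMod p)) ^ n = Equiv.addLeft (n : ZMod p) := by
  induction n with
  | zero => ext; simp
  | succ n ih => ext k; rw [pow_succ, ih]; simp

lemma mulLeft_conj {p : ℕ} (g : (ZMod p)ˣ) :
    (Units.mulLeft g : Equiv.Perm (ZMod p)) * Equiv.addLeft 1 * (Units.mulLeft g)⁻¹ *
      (Equiv.addLeft (g : ZMod p))⁻¹ = 1 := by
  rw [mul_inv_eq_one, mul_inv_eq_iff_eq_mul]
  ext k
  simp [mul_add]

/-- The permutational wreath product used to detect infiniteness. -/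
abbrev PW (p : ℕ) (S : Type u) [Group S] : Type u :=
  (ZMod p → S) ⋊[permAct p S] Equiv.Perm (ZMod p)

/-- The seven relators that do not depend on the group. -/
def rel7 (p m : ℕ) : Fin 7 → FreeGroup (Fin 4) :=
  let a : FreeGroup (Fin 4) := of 0
  let b : FreeGroup (Fin 4) := of 1
  let x : FreeGroup (Fin 4) := of 2
  let y : FreeGroup (Fin 4) := of 3
  ![a ^ p, b * a * b⁻¹ * (a ^ m)⁻¹, ⁅b, x⁆, ⁅b, y⁆,
    ⁅x, a * x * a⁻¹⁆, ⁅x, a * y * a⁻¹⁆, ⁅y, a * y * a⁻¹⁆]

lemma noncommProd_eq_toList_prod {α β : Type*} [Monoid β] (s : Finset α) (f : α → β) (comm) :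
    s.noncommProd f comm = (s.toList.map f).prod := by
  classical
  rw [← Finset.noncommProd_toFinset s.toList f (by simpa using comm) (Finset.nodup_toList s)]
  exact Finset.noncommProd_congr (Finset.toList_toFinset s).symm (fun _ _ => rfl) comm

set_option maxHeartbeats 400000 in
/-- The main construction. -/
theorem exists_eight {S : Type} [Group S] [Infinite S] (φ : FreeGroup (Fin 2) →* S)
    (hφ : Function.Surjective φ) (hker : φ.ker.IsFinitelyNormallyGenerated)
    (hper : Periodic S) :
    ∃ (R : Fin 8 → FreeGroup (Fin 4)) (Z : Subgroup (PresentedGroup (Set.range R))),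
      Z.FG ∧ Z ≤ Subgroup.center _ ∧ Infinite (PresentedGroup (Set.range R) ⧸ Z) ∧
      (∀ w : PresentedGroup (Set.range R), ∃ n : ℕ, 0 < n ∧ w ^ n ∈ Z) ∧
      ∀ e : ℕ, 1 ≤ e → (∀ s : S, s ^ e = 1) →
        ∃ e' : ℕ, 1 ≤ e' ∧ ∀ w : PresentedGroup (Set.range R), w ^ e' ∈ Z := by
  classical
  obtain ⟨T, hT, hTk⟩ := hker
  have : Fintype T := hT.fintype
  obtain ⟨p, hpT, hpP⟩ := Nat.exists_infinite_primes (Fintype.card T + 3)
  have : Fact p.Prime := ⟨hpP⟩
  obtain ⟨g, hg⟩ := IsCyclic.exists_generator (α := (ZMod p)ˣ)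
  -- relators spread over the positions
  obtain ⟨emb⟩ : Nonempty (T ↪ ZMod p) :=
    Function.Embedding.nonempty_of_card_le (by rw [ZMod.card]; omega)
  obtain ⟨t₀, ht₀⟩ : ∃ t₀, ∀ t, emb t ≠ t₀ := by
    by_contra h
    push Not at h
    have := Fintype.card_le_of_surjective emb h
    rw [ZMod.card] at this
    omega
  let f : ZMod p → FreeGroup (Fin 2) := Function.extend emb Subtype.val fun _ => 1
  have hft₀ : f t₀ = 1 :=
    Function.extend_apply' _ _ _ fun ⟨t, ht⟩ => ht₀ t ht
  have hfk : ∀ i, φ (f i) = 1 := by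
    intro i
    by_cases hi : ∃ t, emb t = i
    · obtain ⟨t, rfl⟩ := hi
      simp only [f, emb.injective.extend_apply]
      have : (t : FreeGroup (Fin 2)) ∈ φ.ker := hTk ▸ Subgroup.subset_normalClosure t.2
      exact this
    · simp [f, Function.extend_apply' _ _ _ hi]
  have hkerf : φ.ker ≤ Subgroup.normalClosure (Set.range f) := by
    rw [← hTk]
    refine Subgroup.normalClosure_mono fun r hr => ⟨emb ⟨r, hr⟩, ?_⟩
    simp [f, emb.injective.extend_apply]
  -- the eighth relator, as a word
  let c₀ : FreeGroup (Fin 2) →* FreeGroup (Fin 4) := lift ![of 2, of 3]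
  let R8 : FreeGroup (Fin 4) := ((Finset.univ : Finset (ZMod p)).toList.map fun i =>
    of 0 ^ i.val * c₀ (f i) * (of 0 ^ i.val)⁻¹).prod
  let R : Fin 8 → FreeGroup (Fin 4) := Fin.snoc (rel7 p (g : ZMod p).val) R8
  let W := PresentedGroup (Set.range R)
  let π : FreeGroup (Fin 4) →* W := PresentedGroup.mk _
  have hπ : ∀ j, π (R j) = 1 := fun j =>
    (QuotientGroup.eq_one_iff _).2 (Subgroup.subset_normalClosure ⟨j, rfl⟩)
  have h7 : ∀ j : Fin 7, π (rel7 p (g : ZMod p).val j) = 1 := fun j => by
    simpa [R] using hπ j.castSucc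
  have h8 : π R8 = 1 := by
    have := hπ (Fin.last 7)
    rwa [show R (Fin.last 7) = R8 from Fin.snoc_last _ _] at this
  let F : Frame p W :=
    { a := π (of 0)
      b := π (of 1)
      c := π.comp c₀
      g := g
      hg := hg
      ha := by simpa [rel7] using h7 0
      hb := by
        have := h7 1
        simp [rel7] at this
        exact mul_inv_eq_one.1 this
      hbc := fun j => by
        fin_cases j
        · have := h7 2
          simpa [rel7, c₀, commutatorElement_eq_one_iff_commute] using this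
        · have := h7 3
          simpa [rel7, c₀, commutatorElement_eq_one_iff_commute] using this
      hxx := by
        have := h7 4
        simpa [rel7, c₀, commutatorElement_eq_one_iff_commute] using this
      hxy := by
        have := h7 5
        simpa [rel7, c₀, commutatorElement_eq_one_iff_commute] using this
      hyy := by
        have := h7 6
        simpa [rel7, c₀, commutatorElement_eq_one_iff_commute] using this
      hgen := by
        rw [eq_top_iff, ← PresentedGroup.closure_range_of (Set.range R), Subgroup.closure_le]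
        rintro _ ⟨j, rfl⟩
        fin_cases j
        · exact Subgroup.subset_closure (Or.inl (Or.inl rfl))
        · exact Subgroup.subset_closure (Or.inl (Or.inr rfl))
        · exact Subgroup.subset_closure (Or.inr ⟨of 0, by simp [c₀]; rfl⟩)
        · exact Subgroup.subset_closure (Or.inr ⟨of 1, by simp [c₀]; rfl⟩) }
  have hR : F.Φ f = 1 := by
    rw [F.Φ_apply]
    refine (noncommProd_eq_toList_prod _ _ _).trans (Eq.trans ?_ h8)
    simp only [R8, map_list_prod, List.map_map]
    refine congrArg List.prod (List.map_congr_left fun i _ => ?_)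
    simp [Frame.C_apply, Frame.A, F]
  -- the map onto the wreath product
  let σa : Equiv.Perm (ZMod p) := Equiv.addLeft 1
  let σb : Equiv.Perm (ZMod p) := Units.mulLeft g
  let x : Fin 2 → PW p S := fun j => SemidirectProduct.inl (Pi.mulSingle 0 (φ (of j)))
  let θ₀ : FreeGroup (Fin 4) →* PW p S :=
    lift ![SemidirectProduct.inr σa, SemidirectProduct.inr σb, x 0, x 1]
  have hθc : ∀ w, θ₀ (c₀ w) = SemidirectProduct.inl (Pi.mulSingle 0 (φ w)) := by
    have : θ₀.comp c₀ = SemidirectProduct.inl.comp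
        ((MonoidHom.mulSingle (fun _ : ZMod p => S) 0).comp φ) := by
      refine FreeGroup.ext_hom _ _ fun j => ?_
      fin_cases j <;> simp [θ₀, c₀, x]
    exact fun w => DFunLike.congr_fun this w
  have hθR : ∀ i : ZMod p, ∀ w, θ₀ (of 0 ^ i.val * c₀ w * (of 0 ^ i.val)⁻¹) =
      SemidirectProduct.inl (Pi.mulSingle i (φ w)) := by
    have hσ : ∀ n : ℕ, σa ^ n = Equiv.addLeft (n : ZMod p) := addLeft_pow
    intro i w
    have ha : θ₀ (of 0) = SemidirectProduct.inr σa := by simp [θ₀]
    rw [map_mul, map_mul, map_inv, map_pow, ha, hθc, ← map_pow, ← map_inv,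
      ← SemidirectProduct.inl_aut, hσ, ZMod.natCast_zmod_val]
    rw [permAct_single]
    simp
  have ha₀ : θ₀ (of 0) = SemidirectProduct.inr σa := by simp [θ₀]
  have hb₀ : θ₀ (of 1) = SemidirectProduct.inr σb := by simp [θ₀]
  have hθ₀ : ∀ r ∈ Set.range R, θ₀ r = 1 := by
    rintro _ ⟨j, rfl⟩
    refine Fin.lastCases ?_ (fun j => ?_) j
    · rw [show R (Fin.last 7) = R8 from Fin.snoc_last _ _]
      simp only [R8, map_list_prod, List.map_map]
      refine List.prod_eq_one fun z hz => ?_
      obtain ⟨i, -, rfl⟩ := List.mem_map.1 hz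
      simp only [Function.comp_apply]
      rw [hθR, hfk, Pi.mulSingle_one, map_one]
    · rw [show R j.castSucc = rel7 p (g : ZMod p).val j from Fin.snoc_castSucc _ _ _]
      have hc2 : θ₀ (of 2) = SemidirectProduct.inl (Pi.mulSingle 0 (φ (of 0))) := by simp [θ₀, x]
      have hc3 : θ₀ (of 3) = SemidirectProduct.inl (Pi.mulSingle 0 (φ (of 1))) := by simp [θ₀, x]
      have hac : ∀ w, θ₀ (of 0 * c₀ w * (of 0)⁻¹) =
          SemidirectProduct.inl (Pi.mulSingle 1 (φ w)) := fun w => by
        have := hθR 1 w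
        rwa [ZMod.val_one, pow_one] at this
      have hbw : ∀ w, Commute (θ₀ (of 1)) (θ₀ (c₀ w)) := fun w => by
        have hb : θ₀ (of 1) = SemidirectProduct.inr σb := by simp [θ₀]
        rw [hb, hθc, Commute, SemiconjBy, ← mul_inv_eq_iff_eq_mul, ← map_inv,
          ← SemidirectProduct.inl_aut]
        rw [permAct_single]
        simp [σb]
      have hpair : ∀ u v, Commute (θ₀ (c₀ u)) (θ₀ (of 0 * c₀ v * (of 0)⁻¹)) := fun u v => by
        rw [hac, hθc]
        exact Commute.map (Pi.mulSingle_commute zero_ne_one _ _) _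
      have hc : ∀ j, θ₀ (c₀ (of j)) = θ₀ (![of 2, of 3] j) := fun j => by simp [c₀]
      have hcomm : ∀ u v, Commute (θ₀ u) (θ₀ v) → θ₀ ⁅u, v⁆ = 1 := fun u v h => by
        rw [map_commutatorElement]; exact commutatorElement_eq_one_iff_commute.2 h
      have e0 : c₀ (of 0) = of 2 := by simp [c₀]
      have e1 : c₀ (of 1) = of 3 := by simp [c₀]
      fin_cases j
      · show θ₀ ((of 0 : FreeGroup (Fin 4)) ^ p) = 1
        rw [map_pow, ha₀, ← map_pow, addLeft_pow, ZMod.natCast_self]
        simp
      · show θ₀ ((of 1 : FreeGroup (Fin 4)) * of 0 * (of 1)⁻¹ *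
          (of 0 ^ (g : ZMod p).val)⁻¹) = 1
        rw [map_mul, map_mul, map_mul, map_inv, map_inv, map_pow, ha₀, hb₀, ← map_pow, ← map_inv,
          ← map_inv, ← map_mul, ← map_mul, ← map_mul]
        rw [addLeft_pow, ZMod.natCast_zmod_val, mulLeft_conj, map_one]
      · show θ₀ ⁅(of 1 : FreeGroup (Fin 4)), (of 2 : FreeGroup (Fin 4))⁆ = 1
        rw [← e0]
        exact hcomm _ _ (hbw _)
      · show θ₀ ⁅(of 1 : FreeGroup (Fin 4)), (of 3 : FreeGroup (Fin 4))⁆ = 1
        rw [← e1]
        exact hcomm _ _ (hbw _)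
      · show θ₀ ⁅(of 2 : FreeGroup (Fin 4)), of 0 * of 2 * (of 0)⁻¹⁆ = 1
        rw [← e0]
        exact hcomm _ _ (hpair _ _)
      · show θ₀ ⁅(of 2 : FreeGroup (Fin 4)), of 0 * of 3 * (of 0)⁻¹⁆ = 1
        rw [← e0, ← e1]
        exact hcomm _ _ (hpair _ _)
      · show θ₀ ⁅(of 3 : FreeGroup (Fin 4)), of 0 * of 3 * (of 0)⁻¹⁆ = 1
        rw [← e1]
        exact hcomm _ _ (hpair _ _)
  let θ : W →* PW p S := PresentedGroup.toGroup (f := ![SemidirectProduct.inr σa,
    SemidirectProduct.inr σb, x 0, x 1]) hθ₀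
  have hθπ : ∀ w, θ (π w) = θ₀ w := by
    have : θ.comp π = θ₀ := FreeGroup.ext_hom _ _ fun j => by
      simp only [MonoidHom.comp_apply, θ₀, FreeGroup.lift_apply_of]
      exact PresentedGroup.toGroup.of hθ₀
    exact fun w => DFunLike.congr_fun this w
  have hθC : ∀ i w, θ (F.C i w) = SemidirectProduct.inl (Pi.mulSingle i (φ w)) := by
    intro i w
    have h : F.C i w = π (of 0 ^ i.val * c₀ w * (of 0 ^ i.val)⁻¹) := by
      simp [Frame.C_apply, Frame.A, F]
    rw [h, hθπ, hθR]
  have hθΦ : ∀ h, θ (F.Φ h) = SemidirectProduct.inl (fun i => φ (h i)) := by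
    have : θ.comp F.Φ = SemidirectProduct.inl.comp
        ({ toFun := fun h i => φ (h i), map_one' := funext fun _ => map_one φ,
           map_mul' := fun _ _ => funext fun _ => map_mul φ _ _ } :
          (ZMod p → FreeGroup (Fin 2)) →* (ZMod p → S)) := by
      refine MonoidHom.pi_ext fun i w => ?_
      simp only [MonoidHom.comp_apply, F.Φ_single, hθC]
      congr 1
      funext k
      exact (Pi.apply_mulSingle (fun _ => φ) (fun _ => map_one φ) i w k).symm
    exact fun h => DFunLike.congr_fun this h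
  -- the central subgroup dies in the wreath product
  have hZθ : F.Z f ≤ θ.ker := by
    refine (Subgroup.closure_le _).2 ?_
    rintro z (rfl | ⟨t, rfl⟩)
    · have hb : θ F.b = SemidirectProduct.inr σb := (hθπ _).trans (by simp [θ₀])
      have hσ : ∀ n : ℕ, σb ^ n = Units.mulLeft (g ^ n) := by
        intro n
        induction n with
        | zero => ext; simp
        | succ n ih => ext k; rw [pow_succ, ih]; simp [σb, pow_succ, mul_assoc]
      have hg1 : g ^ (p - 1) = 1 := F.pow_g
      rw [SetLike.mem_coe, MonoidHom.mem_ker, map_pow, hb, ← map_pow, hσ, hg1]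
      rw [show Units.mulLeft (1 : (ZMod p)ˣ) = 1 by ext; simp, map_one]
    · rw [SetLike.mem_coe, MonoidHom.mem_ker, hθΦ]
      simp only [hfk]
      exact map_one _
  have hinf : Infinite (W ⧸ F.Z f) := by
    by_contra hfin
    rw [not_infinite_iff_finite] at hfin
    have hrange : (θ.range : Set (PW p S)).Finite := by
      let θ' : W ⧸ F.Z f → PW p S := Quotient.lift θ fun u v huv => by
        have h : u⁻¹ * v ∈ F.Z f := QuotientGroup.leftRel_apply.1 huv
        have := hZθ h
        rwa [MonoidHom.mem_ker, map_mul, map_inv, inv_mul_eq_one] at this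
      refine (Set.finite_range θ').subset ?_
      rintro _ ⟨w, rfl⟩
      exact ⟨QuotientGroup.mk w, rfl⟩
    have hsub : Set.range (fun s : S => (SemidirectProduct.inl (Pi.mulSingle 0 s) : PW p S)) ⊆
        θ.range := by
      rintro _ ⟨s, rfl⟩
      obtain ⟨w, rfl⟩ := hφ s
      exact ⟨_, hθC 0 w⟩
    exact Set.infinite_range_of_injective
      (SemidirectProduct.inl_injective.comp (Pi.mulSingle_injective 0)) (hrange.subset hsub)
  -- periodicity modulo the central subgroup
  obtain ⟨m, hm, hpow⟩ := F.exists_pow_mem hR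
  have main : ∀ (w : W) (z h), z ∈ F.Z f → w ^ m = z * F.Φ h → ∀ e : ℕ,
      (∀ i, φ (h i) ^ e = 1) → w ^ (m * (e * p)) ∈ F.Z f := by
    intro w z h hz hw e he
    have hc : Commute z (F.Φ h) := (Subgroup.mem_center_iff.1 (F.Z_le_center hR hz) _).symm
    rw [pow_mul, hw, hc.mul_pow]
    refine mul_mem (pow_mem hz _) ?_
    rw [pow_mul, ← map_pow]
    refine (F.Φ_mem_tor hR hft₀ fun i => hkerf ?_).2
    simp [he]
  refine ⟨R, F.Z f, F.Z_fg f, F.Z_le_center hR, hinf, fun w => ?_, fun e he hexp => ?_⟩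
  · obtain ⟨z, hz, h, hw⟩ := hpow w
    let e := ∏ i, orderOf (φ (h i))
    refine ⟨m * (e * p), ?_, main w z h hz hw e fun i => ?_⟩
    · have : 0 < e := Finset.prod_pos fun i _ => (hper _).orderOf_pos
      exact Nat.mul_pos hm (Nat.mul_pos this hpP.pos)
    · exact orderOf_dvd_iff_pow_eq_one.1 (Finset.dvd_prod_of_mem _ (Finset.mem_univ i))
  · refine ⟨m * (e * p), Nat.one_le_iff_ne_zero.2 (mul_ne_zero hm.ne' (mul_ne_zero (by omega) hpP.pos.ne')), fun w => ?_⟩
    obtain ⟨z, hz, h, hw⟩ := hpow w
    exact main w z h hz hw e fun i => hexp _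

end Vale.Agent.P192
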