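import Mathlib

/-!
Closure properties of finitely presented groups: extensions, finite products and subgroups of
finite index.
-/

namespace Vale.Agent.P192

open Monoid

universe u v

/-- An extension of a finitely presented group by a finitely presented group is finitely
presented. -/
theorem fp_extension {G : Type u} {Q : Type v} [Group G] [Group Q] (f : G →* Q)
    (hf : Function.Surjective f) [hQ : Group.IsFinitelyPresented Q]
    [hK : Group.IsFinitelyPresented f.ker] : Group.IsFinitelyPresented G := by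
  classical
  obtain ⟨n, φ₀, hφ₀, S, hS, hSk⟩ := hK.out
  obtain ⟨m, ψ, hψ, T, hT, hTk⟩ := hQ.out
  let φ : FreeGroup (Fin n) →* G := f.ker.subtype.comp φ₀
  have hφrange : ∀ g, f g = 1 → ∃ w, φ w = g := fun g hg => by
    obtain ⟨w, hw⟩ := hφ₀ ⟨g, hg⟩
    exact ⟨w, congrArg Subtype.val hw⟩
  have hfφ : ∀ w, f (φ w) = 1 := fun w => (φ₀ w).2
  have hφker : φ.ker = Subgroup.normalClosure S := by
    rw [hSk]
    ext w
    simp only [MonoidHom.mem_ker]
    exact ⟨fun h => Subtype.ext h, fun h => congrArg Subtype.val h⟩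
  let τ : FreeGroup (Fin m) →* G :=
    FreeGroup.lift fun j => Function.surjInv hf (ψ (FreeGroup.of j))
  have hfτ : ∀ u, f (τ u) = ψ u := by
    intro u
    have : f.comp τ = ψ := FreeGroup.ext_hom _ _ (fun j => by
      simp [τ, Function.surjInv_eq hf])
    exact DFunLike.congr_fun this u
  let π : Coprod (FreeGroup (Fin n)) (FreeGroup (Fin m)) →* G := Coprod.lift φ τ
  have hπ : Function.Surjective π := by
    intro g
    obtain ⟨u, hu⟩ := hψ (f g)
    obtain ⟨w, hw⟩ := hφrange (g * (τ u)⁻¹) (by simp [hfτ, hu])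
    exact ⟨Coprod.inl w * Coprod.inr u, by simp [π, hw]⟩
  -- the relators
  let ts : Fin m × Bool → FreeGroup (Fin m) := fun j =>
    if j.2 then FreeGroup.of j.1 else (FreeGroup.of j.1)⁻¹
  have hconj : ∀ (j : Fin m × Bool) (i : Fin n),
      ∃ w, φ w = τ (ts j) * φ (FreeGroup.of i) * (τ (ts j))⁻¹ := fun j i =>
    hφrange _ (by simp [hfφ])
  choose cw hcw using hconj
  have hrel : ∀ r : T, ∃ w, φ w = τ r := fun r => hφrange _ (by
    rw [hfτ]
    have : (r : FreeGroup (Fin m)) ∈ ψ.ker := hTk ▸ Subgroup.subset_normalClosure r.2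
    exact this)
  choose rw' hrw using hrel
  let c₁ : (Fin m × Bool) × Fin n → Coprod (FreeGroup (Fin n)) (FreeGroup (Fin m)) := fun p =>
    Coprod.inr (ts p.1) * Coprod.inl (FreeGroup.of p.2) * (Coprod.inr (ts p.1))⁻¹ *
      (Coprod.inl (cw p.1 p.2))⁻¹
  let c₂ : T → Coprod (FreeGroup (Fin n)) (FreeGroup (Fin m)) := fun r =>
    Coprod.inr (r : FreeGroup (Fin m)) * (Coprod.inl (rw' r))⁻¹
  let R : Set (Coprod (FreeGroup (Fin n)) (FreeGroup (Fin m))) :=
    (Coprod.inl '' S) ∪ Set.range c₁ ∪ Set.range c₂
  have : Finite T := hT.to_subtype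
  have hR : R.Finite := ((hS.image _).union (Set.finite_range _)).union (Set.finite_range _)
  refine Group.IsFinitelyPresented.of_surjective π hπ ⟨R, hR, le_antisymm ?_ ?_⟩
  · refine Subgroup.normalClosure_le_normal ?_
    rintro x ((⟨s, hs, rfl⟩ | ⟨⟨j, i⟩, rfl⟩) | ⟨r, rfl⟩)
    · have : s ∈ φ.ker := hφker ▸ Subgroup.subset_normalClosure hs
      simpa [π] using this
    · simp [π, c₁, hcw]
    · simp [π, c₂, hrw]
  · let q := QuotientGroup.mk' (Subgroup.normalClosure R)
    let A : FreeGroup (Fin n) →* _ := q.comp Coprod.inl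
    let B : FreeGroup (Fin m) →* _ := q.comp Coprod.inr
    have hq : ∀ x ∈ R, q x = 1 := fun x hx =>
      (QuotientGroup.eq_one_iff x).2 (Subgroup.subset_normalClosure hx)
    have hgen : ∀ (j : Fin m × Bool) (w : FreeGroup (Fin n)),
        B (ts j) * A w * (B (ts j))⁻¹ ∈ A.range := by
      intro j w
      induction w using FreeGroup.induction_on with
      | C1 => simp
      | of i =>
        refine ⟨cw j i, ?_⟩
        have h := hq (c₁ (j, i)) (Or.inl (Or.inr ⟨_, rfl⟩))
        simp only [c₁, map_mul, map_inv] at h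
        exact (mul_inv_eq_one.1 h).symm
      | inv_of i hi =>
        have := inv_mem hi
        simpa [mul_assoc] using this
      | mul x y hx hy =>
        have := mul_mem hx hy
        simpa [mul_assoc] using this
    have hU : ∀ (u : FreeGroup (Fin m)) (w : FreeGroup (Fin n)),
        B u * A w * (B u)⁻¹ ∈ A.range := by
      intro u
      induction u using FreeGroup.induction_on with
      | C1 => intro w; simp
      | of j => exact hgen (j, true)
      | inv_of j _ => exact hgen (j, false)
      | mul x y hx hy =>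
        intro w
        obtain ⟨w', hw'⟩ := hy w
        have := hx w'
        rw [hw'] at this
        simpa [mul_assoc] using this
    have hall : ∀ x, ∃ w u, q x = A w * B u := by
      intro x
      induction x using Coprod.induction_on with
      | inl w => exact ⟨w, 1, by simp [A]⟩
      | inr u => exact ⟨1, u, by simp [B]⟩
      | mul x y hx hy =>
        obtain ⟨w, u, h₁⟩ := hx
        obtain ⟨w', u', h₂⟩ := hy
        obtain ⟨w'', hw''⟩ := hU u w'
        exact ⟨w * w'', u * u', by rw [map_mul, h₁, h₂, map_mul, map_mul, hw'']; group⟩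
    have hnormal : (A.range.comap B).Normal := ⟨fun u hu v => by
      obtain ⟨w, hw⟩ := hu
      have := hU v w
      rw [hw] at this
      simpa using this⟩
    have hT' : ψ.ker ≤ A.range.comap B := by
      rw [← hTk]
      refine Subgroup.normalClosure_le_normal fun r hr => ⟨rw' ⟨r, hr⟩, ?_⟩
      have h := hq (c₂ ⟨r, hr⟩) (Or.inr ⟨_, rfl⟩)
      simp only [c₂, map_mul, map_inv] at h
      exact (mul_inv_eq_one.1 h).symm
    have hS' : φ.ker ≤ A.ker := by
      rw [hφker]
      exact Subgroup.normalClosure_le_normal fun s hs => hq _ (Or.inl (Or.inl ⟨s, hs, rfl⟩))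
    intro x hx
    obtain ⟨w, u, hxe⟩ := hall x
    have hker : Subgroup.normalClosure R ≤ π.ker := by
      refine Subgroup.normalClosure_le_normal ?_
      rintro x ((⟨s, hs, rfl⟩ | ⟨⟨j, i⟩, rfl⟩) | ⟨r, rfl⟩)
      · have : s ∈ φ.ker := hφker ▸ Subgroup.subset_normalClosure hs
        simpa [π] using this
      · simp [π, c₁, hcw]
      · simp [π, c₂, hrw]
    let πbar := QuotientGroup.lift (Subgroup.normalClosure R) π hker
    have hA : ∀ v, πbar (A v) = φ v := fun v => by simp [πbar, A, q, π]
    have hB : ∀ v, πbar (B v) = τ v := fun v => by simp [πbar, B, q, π]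
    have hprod : φ w * τ u = 1 := by
      have h : πbar (q x) = 1 := by simpa [πbar, q] using hx
      rwa [hxe, map_mul, hA, hB] at h
    have hu : u ∈ ψ.ker := by
      have h := congrArg f hprod
      simpa [hfφ, hfτ] using h
    obtain ⟨w₂, hw₂⟩ := hT' hu
    have hAw : A (w * w₂) = 1 := hS' (by
      change φ (w * w₂) = 1
      have h := congrArg πbar hw₂
      rw [hA, hB] at h
      rw [map_mul, h, hprod])
    exact (QuotientGroup.eq_one_iff x).1 (by rw [← hAw, map_mul, hw₂]; exact hxe)

theorem fp_prod {G : Type u} {H : Type v} [Group G] [Group H] [Group.IsFinitelyPresented G]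
    [Group.IsFinitelyPresented H] : Group.IsFinitelyPresented (G × H) := by
  let e : G ≃* (MonoidHom.snd G H).ker :=
    { toFun := fun g => ⟨(g, 1), rfl⟩
      invFun := fun x => x.1.1
      left_inv := fun _ => rfl
      right_inv := fun x => Subtype.ext (Prod.ext rfl x.2.symm)
      map_mul' := fun g g' => Subtype.ext (Prod.ext rfl (one_mul (1 : H)).symm) }
  have : Group.IsFinitelyPresented (MonoidHom.snd G H).ker := Group.IsFinitelyPresented.equiv e
  exact fp_extension (MonoidHom.snd G H) Prod.snd_surjective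

/-- A finite power of a finitely presented group is finitely presented. -/
theorem fp_pi (G : Type u) [Group G] [Group.IsFinitelyPresented G] (ι : Type v) [Finite ι] :
    Group.IsFinitelyPresented (ι → G) := by
  refine Finite.induction_empty_option
    (P := fun ι => Group.IsFinitelyPresented (ι → G)) ?_ ?_ ?_ ι
  · intro α β e h
    exact Group.IsFinitelyPresented.equiv
      ({ toEquiv := e.arrowCongr (Equiv.refl G), map_mul' := fun x y => rfl } :
        (α → G) ≃* (β → G))
  · infer_instance
  · intro α _ h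
    have := fp_prod (G := G) (H := α → G)
    exact Group.IsFinitelyPresented.equiv
      ({ toEquiv := (Equiv.piOptionEquivProd (β := fun _ : Option α => G)).symm
         map_mul' := fun x y => funext fun a => by cases a <;> rfl } :
        G × (α → G) ≃* (Option α → G))

/-- A free group that is finitely generated is finitely presented. -/
theorem fp_of_free (G : Type u) [Group G] [IsFreeGroup G] [hG : Group.FG G] :
    Group.IsFinitelyPresented G := by
  classical
  let e := IsFreeGroup.toFreeGroup G
  obtain ⟨s, hs⟩ := hG.out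
  let L : Finset (IsFreeGroup.Generators G) :=
    s.biUnion fun g => ((e g).toWord.map Prod.fst).toFinset
  have key : ∀ x, x ∈ L := by
    intro x
    by_contra hx
    let χ : FreeGroup (IsFreeGroup.Generators G) →* Multiplicative ℤ :=
      FreeGroup.lift fun y => if y ∈ L then 1 else Multiplicative.ofAdd 1
    have h1 : (χ.comp e.toMonoidHom).ker = ⊤ := by
      rw [eq_top_iff, ← hs, Subgroup.closure_le]
      intro g hg
      change χ (e g) = 1
      rw [← FreeGroup.mk_toWord (x := e g), FreeGroup.lift_mk]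
      refine List.prod_eq_one fun z hz => ?_
      obtain ⟨⟨y, b⟩, hy, rfl⟩ := List.mem_map.1 hz
      have hyL : y ∈ L :=
        Finset.mem_biUnion.2 ⟨g, hg, List.mem_toFinset.2 (List.mem_map.2 ⟨_, hy, rfl⟩)⟩
      cases b <;> simp [hyL]
    have h2 : e.symm (FreeGroup.of x) ∈ (χ.comp e.toMonoidHom).ker := h1 ▸ Subgroup.mem_top _
    simp [χ, hx] at h2
  let : Fintype (IsFreeGroup.Generators G) := ⟨L, key⟩
  exact Group.IsFinitelyPresented.equiv e.symm

/-- A subgroup of finite index of a finitely presented group is finitely presented. -/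
theorem fp_subgroup {G : Type u} [Group G] [hG : Group.IsFinitelyPresented G] (H : Subgroup G)
    [H.FiniteIndex] : Group.IsFinitelyPresented H := by
  classical
  obtain ⟨n, φ, hφ, S, hS, hSk⟩ := hG.out
  let H' := H.comap φ
  have : H'.FiniteIndex := ⟨by
    rw [Subgroup.index_comap_of_surjective H hφ]; exact Subgroup.FiniteIndex.index_ne_zero⟩
  have : Group.IsFinitelyPresented H' := fp_of_free H'
  let ψ : H' →* H := φ.subgroupComap H
  have hψ : Function.Surjective ψ := by
    rintro ⟨h, hh⟩
    obtain ⟨w, rfl⟩ := hφ h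
    exact ⟨⟨w, hh⟩, rfl⟩
  obtain ⟨t, ht, -⟩ := H'.exists_isComplement_right 1
  have : Finite t := Subgroup.IsComplement.finite_right_iff ht |>.2 inferInstance
  let R : Set H' := {x | ∃ a ∈ t, ∃ s ∈ S, (x : FreeGroup (Fin n)) = a * s * a⁻¹}
  have hmem : ∀ a, ∀ s ∈ S, a * s * a⁻¹ ∈ φ.ker := fun a s hs =>
    hSk ▸ Subgroup.normalClosure_normal.conj_mem s (Subgroup.subset_normalClosure hs) a
  have hR : R.Finite := by
    refine ((((Set.toFinite t).prod hS).image fun p => p.1 * p.2 * p.1⁻¹).preimage
      Subtype.val_injective.injOn).subset ?_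
    rintro x ⟨a, ha, s, hs, hx⟩
    exact ⟨(a, s), ⟨ha, hs⟩, hx.symm⟩
  refine Group.IsFinitelyPresented.of_surjective ψ hψ ⟨R, hR, le_antisymm ?_ ?_⟩
  · refine Subgroup.normalClosure_le_normal ?_
    rintro x ⟨a, ha, s, hs, hx⟩
    apply Subtype.ext
    change φ x = 1
    rw [hx]
    exact hmem a s hs
  · have hle : φ.ker ≤ (Subgroup.normalClosure R).map H'.subtype := by
      rw [← hSk, Subgroup.normalClosure, Subgroup.closure_le]
      intro y hy
      obtain ⟨s, hs, g, hg⟩ : ∃ s ∈ S, ∃ g, g * s * g⁻¹ = y := by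
        simp only [Group.conjugatesOfSet, Set.mem_iUnion] at hy
        obtain ⟨s, hs, hy⟩ := hy
        obtain ⟨g, hg⟩ := isConj_iff.1 hy
        exact ⟨s, hs, g, hg⟩
      obtain ⟨⟨h, a⟩, hha⟩ := ht.2 g
      have hin : (a : FreeGroup (Fin n)) * s * (a : FreeGroup (Fin n))⁻¹ ∈ H' := by
        change φ _ ∈ H
        rw [hmem _ s hs]
        exact one_mem H
      refine ⟨(⟨h, h.2⟩ : H') * ⟨_, hin⟩ * (⟨h, h.2⟩ : H')⁻¹,
        Subgroup.normalClosure_normal.conj_mem _
          (Subgroup.subset_normalClosure (show (⟨_, hin⟩ : H') ∈ R from ⟨a, a.2, s, hs, rfl⟩)) _, ?_⟩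
      rw [← hg, ← hha]
      simp only [map_mul, map_inv, Subgroup.coe_subtype]
      group
    intro x hx
    have : (x : FreeGroup (Fin n)) ∈ φ.ker := congrArg Subtype.val hx
    obtain ⟨z, hz, hzx⟩ := hle this
    exact Subtype.ext hzx ▸ hz

end Vale.Agent.P192
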