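import Vale.Agent.P192.Cuts
import Vale.Agent.P192.FP

/-!
Consequences for groups with no virtual surjection onto `ℤ`: uniformly linear Schreier growth
forces a finite image, bounded type forces finite orbits; closure under extensions.
-/

namespace Vale.Agent.P192

open Vale.Agent.P196

/-- Uniformly linear growth of all Schreier balls, for every finite set of elements. -/
def LinSchreier {A : Type*} [Group A] {Y : Type*} (ρ : A →* Equiv.Perm Y) : Prop :=
  ∀ T : Finset A, ∃ C : ℕ, ∀ (y : Y) (n : ℕ),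
    {z : Y | ∃ l : List A, l.length ≤ n ∧ (∀ s ∈ l, s ∈ T ∨ s⁻¹ ∈ T) ∧ ρ l.prod y = z}.Finite ∧
    {z : Y | ∃ l : List A, l.length ≤ n ∧ (∀ s ∈ l, s ∈ T ∨ s⁻¹ ∈ T) ∧ ρ l.prod y = z}.ncard
      ≤ C * (n + 1)

variable {G : Type} [Group G] [Group.IsFinitelyPresented G]

/-- Uniformly linear Schreier growth forces a finite image. -/
theorem finite_range_of_linSchreier (hG : ¬ VirtZ G) {Y : Type} (ρ : G →* Equiv.Perm Y)
    (h : LinSchreier ρ) : Finite ρ.range := by
  classical
  obtain ⟨d, φ, hφ, -⟩ := Group.IsFinitelyPresented.out (G := G)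
  set S : Finset G := Finset.univ.image fun i : Fin d => φ (FreeGroup.of i) with hSdef
  have hS : Subgroup.closure (S : Set G) = ⊤ := by
    rw [hSdef, Finset.coe_image, Finset.coe_univ, Set.image_univ]
    rw [show (Set.range fun i : Fin d => φ (FreeGroup.of i)) = φ '' Set.range FreeGroup.of by
      rw [← Set.range_comp]; rfl, ← MonoidHom.map_closure, FreeGroup.closure_range_of,
      Subgroup.map_top_of_surjective φ hφ]
  letI : MulAction G Y := MulAction.compHom Y ρ
  obtain ⟨C, hC⟩ := h S
  obtain ⟨N, hN⟩ := finite_orbit_bound hG S hS C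
  have horb : ∀ y : Y, (MulAction.orbit G y).Finite ∧ (MulAction.orbit G y).ncard ≤ N :=
    fun y => hN Y y fun n => (hC y n).2
  let P := Equiv.Perm (Fin N)
  haveI : Finite (G →* P) := by
    refine Finite.of_injective (fun f i => f (φ (FreeGroup.of i)) : (G →* P) → Fin d → P) ?_
    intro f f' hf
    have : f.comp φ = f'.comp φ := FreeGroup.ext_hom _ _ fun i => congrFun hf i
    exact (MonoidHom.cancel_right hφ).1 this
  let Φ : G →* ((G →* P) → P) := Pi.monoidHom fun f => f
  have hker : Φ.ker ≤ ρ.ker := by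
    intro g hg
    refine MonoidHom.mem_ker.2 (Equiv.ext fun y => ?_)
    haveI := (horb y).1.fintype
    obtain ⟨e⟩ : Nonempty (MulAction.orbit G y ↪ Fin N) :=
      Function.Embedding.nonempty_of_card_le (by
        rw [Fintype.card_fin, ← Nat.card_eq_fintype_card, Nat.card_coe_set_eq]
        exact (horb y).2)
    have h1 := congrFun (MonoidHom.mem_ker.1 hg)
      ((Equiv.Perm.viaEmbeddingHom e).comp (MulAction.toPermHom G (MulAction.orbit G y)))
    simp only [Φ, Pi.monoidHom_apply, MonoidHom.comp_apply, Pi.one_apply] at h1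
    have h2 := Equiv.Perm.viaEmbeddingHom_injective e (h1.trans (map_one _).symm)
    have h3 := congrArg Subtype.val (DFunLike.congr_fun h2 ⟨y, MulAction.mem_orbit_self y⟩)
    exact h3
  haveI : Φ.ker.FiniteIndex := inferInstance
  haveI : ρ.ker.FiniteIndex := Subgroup.finiteIndex_of_le hker
  exact Finite.of_equiv _ (QuotientGroup.quotientKerEquivRange ρ).toEquiv

/-- Piecewise elements of a group of linear growth have uniformly linear Schreier growth. -/
theorem linSchreier_of_full {A : Type*} [Group A] {Λ Y : Type*} [Group Λ] [MulAction Λ Y]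
    (T : Finset Λ) (hT : Subgroup.closure (T : Set Λ) = ⊤) (C : ℕ)
    (hΛ : ∀ m : ℕ, {k : Λ | ∃ l : List Λ, l.length ≤ m ∧ (∀ s ∈ l, s ∈ T ∨ s⁻¹ ∈ T) ∧
      l.prod = k}.ncard ≤ C * (m + 1))
    (ρ : A →* Equiv.Perm Y) (hρ : ∀ g, ∃ K : Finset Λ, ∀ y, ∃ k ∈ K, ρ g y = k • y) :
    LinSchreier ρ := by
  classical
  intro E
  choose K hK using hρ
  obtain ⟨D, hD⟩ := exists_radius hT (E.biUnion fun g => K g ∪ K g⁻¹)
  refine ⟨C * (D + 1), fun y n => ?_⟩
  set Ball : ℕ → Set Λ := fun m =>
    {k : Λ | ∃ l : List Λ, l.length ≤ m ∧ (∀ s ∈ l, s ∈ T ∨ s⁻¹ ∈ T) ∧ l.prod = k}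
  have hBfin : ∀ m, (Ball m).Finite := fun m => by
    refine (ballOrbit_finite T m (1 : Λ)).subset ?_
    rintro k ⟨l, h1, h2, rfl⟩
    exact ⟨l, h1, h2, by simp⟩
  have hsub : {z : Y | ∃ l : List A, l.length ≤ n ∧ (∀ s ∈ l, s ∈ E ∨ s⁻¹ ∈ E) ∧
      ρ l.prod y = z} ⊆ (fun k => k • y) '' Ball (D * n) := by
    rintro z ⟨l, hl, hlE, rfl⟩
    have : ∃ u : List Λ, u.length ≤ D * l.length ∧ (∀ s ∈ u, s ∈ T ∨ s⁻¹ ∈ T) ∧
        u.prod • y = ρ l.prod y := by
      clear hl
      induction l with
      | nil => exact ⟨[], by simp, by simp, by simp⟩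
      | cons s l ih =>
        obtain ⟨u, h1, h2, h3⟩ := ih fun t ht => hlE t (List.mem_cons_of_mem _ ht)
        obtain ⟨k, hk, hk'⟩ := hK s (ρ l.prod y)
        obtain ⟨v, v1, v2, v3⟩ := hD k (by
          rcases hlE s (List.mem_cons_self ..) with hs | hs
          · exact Finset.mem_biUnion.2 ⟨s, hs, Finset.mem_union_left _ hk⟩
          · exact Finset.mem_biUnion.2 ⟨s⁻¹, hs, Finset.mem_union_right _ (by rwa [inv_inv])⟩)
        refine ⟨v ++ u, ?_, fun t ht => (List.mem_append.1 ht).elim (v2 t) (h2 t), ?_⟩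
        · rw [List.length_append, List.length_cons, Nat.mul_succ]; omega
        · rw [List.prod_append, mul_smul, h3, v3, List.prod_cons, map_mul, Equiv.Perm.mul_apply,
            hk']
    obtain ⟨u, h1, h2, h3⟩ := this
    exact ⟨u.prod, ⟨u, h1.trans (Nat.mul_le_mul_left D hl), h2, rfl⟩, h3⟩
  refine ⟨((hBfin _).image _).subset hsub, ?_⟩
  calc _ ≤ ((fun k => k • y) '' Ball (D * n)).ncard :=
        Set.ncard_le_ncard hsub ((hBfin _).image _)
    _ ≤ (Ball (D * n)).ncard := Set.ncard_image_le (hBfin _)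
    _ ≤ C * (D * n + 1) := hΛ _
    _ ≤ C * (D + 1) * (n + 1) := by
        rw [Nat.mul_assoc]; exact Nat.mul_le_mul_left C (by nlinarith)

/-- Infinite cyclic groups have linear growth. -/
theorem linSchreier_of_zpow {A : Type*} [Group A] {Y : Type*} (τ : Equiv.Perm Y)
    (ρ : A →* Equiv.Perm Y) (hρ : ∀ g, ∃ K : Finset ℤ, ∀ y, ∃ k ∈ K, ρ g y = (τ ^ k) y) :
    LinSchreier ρ := by
  classical
  letI : MulAction (Multiplicative ℤ) Y :=
    MulAction.compHom Y (zpowersHom (Equiv.Perm Y) τ)
  refine linSchreier_of_full {Multiplicative.ofAdd (1 : ℤ)} ?_ 2 (fun m => ?_) ρ fun g => ?_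
  · refine (Subgroup.eq_top_iff' _).2 fun x => ?_
    have := Subgroup.zpow_mem _ (Subgroup.subset_closure (k := ({Multiplicative.ofAdd (1 : ℤ)} :
      Set (Multiplicative ℤ))) rfl) x.toAdd
    simpa [← ofAdd_zsmul] using this
  · refine le_trans (Set.ncard_le_ncard (t := ↑((Finset.Icc (-(m : ℤ)) m).image
      Multiplicative.ofAdd)) ?_ (Finset.finite_toSet _)) ?_
    · rintro k ⟨l, hl, hl', rfl⟩
      refine Finset.mem_coe.2 (Finset.mem_image.2 ⟨l.prod.toAdd, Finset.mem_Icc.2 ?_, rfl⟩)
      have : l.prod.toAdd.natAbs ≤ l.length := by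
        clear hl
        induction l with
        | nil => simp
        | cons s l ih =>
          have h1 := ih fun t ht => hl' t (List.mem_cons_of_mem _ ht)
          have h2 : s.toAdd.natAbs ≤ 1 := by
            rcases hl' s (List.mem_cons_self ..) with h | h <;>
              have := congrArg Multiplicative.toAdd (Finset.mem_singleton.1 h) <;>
              simp at this <;> omega
          rw [List.prod_cons, toAdd_mul, List.length_cons]
          omega
      omega
    · rw [Set.ncard_coe_finset]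
      refine Finset.card_image_le.trans ?_
      rw [Int.card_Icc]
      omega
  · obtain ⟨K, hK⟩ := hρ g
    refine ⟨K.image Multiplicative.ofAdd, fun y => ?_⟩
    obtain ⟨k, hk, hk'⟩ := hK y
    exact ⟨_, Finset.mem_image_of_mem _ hk, hk'⟩

variable {a : ℕ → ℕ}

/-- All orbits of an action by bijections of bounded type are finite. -/
theorem finite_orbits_of_boundedType (hG : ¬ VirtZ G)
    (ρ : G →* Equiv.Perm (∀ k, Fin (a k))) (hρ : ∀ g, BoundedType (ρ g))
    (x₀ : ∀ k, Fin (a k)) : (Set.range fun g => ρ g x₀).Finite := by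
  classical
  obtain ⟨d, φ, hφ, -⟩ := Group.IsFinitelyPresented.out (G := G)
  let sing : G → Set (∀ k, Fin (a k)) := fun g => {x | ¬ Cofinal (ρ g x) x}
  let K : Set (∀ k, Fin (a k)) := insert x₀ (⋃ i : Fin d,
    (ρ (φ (FreeGroup.of i)) '' sing (φ (FreeGroup.of i))) ∪
      (ρ (φ (FreeGroup.of i))⁻¹ '' sing (φ (FreeGroup.of i))⁻¹))
  have hK : K.Finite := (Set.finite_iUnion fun i =>
    ((hρ _).finite_singular.image _).union ((hρ _).finite_singular.image _)).insert _
  let O : Set (∀ k, Fin (a k)) := {y | ∃ c ∈ K, Cofinal y c}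
  have hbase : ∀ (g : G), ρ g '' sing g ⊆ K → ∀ y ∈ O, ρ g y ∈ O := by
    intro g hg y ⟨c, hc, hyc⟩
    by_cases hs : y ∈ sing g
    · exact ⟨ρ g y, hg ⟨y, hs, rfl⟩, 0, fun _ _ => rfl⟩
    · exact ⟨c, hc, (not_not.1 hs : Cofinal (ρ g y) y).trans hyc⟩
  have hO : ∀ (g : G), ∀ y ∈ O, ρ g y ∈ O := by
    intro g
    obtain ⟨u, rfl⟩ := hφ g
    induction u using FreeGroup.induction_on with
    | C1 => intro y hy; simpa using hy
    | of i =>
      exact hbase _ fun z hz => Or.inr (Set.mem_iUnion.2 ⟨i, Or.inl hz⟩)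
    | inv_of i _ =>
      rw [map_inv]
      exact hbase _ fun z hz => Or.inr (Set.mem_iUnion.2 ⟨i, Or.inr hz⟩)
    | mul u v hu hv =>
      intro y hy
      rw [map_mul, map_mul, Equiv.Perm.mul_apply]
      exact hu _ (hv y hy)
  letI : MulAction G O :=
    { smul := fun g y => ⟨ρ g y.1, hO g y.1 y.2⟩
      one_smul := fun y => Subtype.ext (by show ρ 1 y.1 = y.1; simp)
      mul_smul := fun a b y => Subtype.ext (by show ρ (a * b) y.1 = ρ a (ρ b y.1); simp) }
  have hX : BoundedCuts G O := by
    intro E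
    choose B hB using hρ
    choose Bad hBad hgood using hB
    refine ⟨hK.toFinset.card * E.sum fun g => B g + B g⁻¹, fun A => ?_⟩
    obtain ⟨n, hn⟩ : ∃ n, ∀ y ∈ A, ∃ c ∈ K, ∀ m, n ≤ m → y.1 m = c m := by
      have : ∀ y : O, ∃ n, ∃ c ∈ K, ∀ m, n ≤ m → y.1 m = c m := fun y => by
        obtain ⟨c, hc, n, hn⟩ := y.2
        exact ⟨n, c, hc, hn⟩
      choose n c hc hn using this
      exact ⟨A.sup n, fun y hy => ⟨c y, hc y, fun m hm => hn y m ((Finset.le_sup hy).trans hm)⟩⟩
    -- the point with prefix `v` and the tail of `c`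
    let mix : (∀ k, Fin (a k)) → (∀ i : Fin n, Fin (a i)) → ∀ k, Fin (a k) := fun c v k =>
      if h : k < n then v ⟨k, h⟩ else c k
    have hmix : ∀ c ∈ K, ∀ v, mix c v ∈ O := fun c hc v =>
      ⟨c, hc, n, fun m hm => dif_neg (by omega)⟩
    let pt : hK.toFinset → (∀ i : Fin n, Fin (a i)) → O := fun c v =>
      ⟨mix c.1 v, hmix c.1 (hK.mem_toFinset.1 c.2) v⟩
    have hpt : ∀ y : O, (∃ c ∈ K, ∀ m, n ≤ m → y.1 m = c m) →
        ∃ c, pt c (pre n y.1) = y := by
      rintro y ⟨c, hc, hy⟩
      refine ⟨⟨c, hK.mem_toFinset.2 hc⟩, Subtype.ext (funext fun k => ?_)⟩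
      show mix c (pre n y.1) k = y.1 k
      by_cases hk : k < n
      · simp [mix, hk, pre]
      · simp [mix, hk, hy k (by omega)]
    let N : Finset O := E.biUnion fun g =>
      ((Finset.univ ×ˢ Bad g n).image fun p => pt p.1 p.2) ∪
        ((Finset.univ ×ˢ Bad g⁻¹ n).image fun p => g⁻¹ • pt p.1 p.2)
    refine ⟨(Finset.univ ×ˢ Finset.univ).image fun p : hK.toFinset × _ => pt p.1 p.2, N,
      ?_, ?_, ?_⟩
    · intro y hy
      obtain ⟨c, hc⟩ := hpt y (hn y hy)
      exact Finset.mem_image.2 ⟨(c, pre n y.1), by simp, hc⟩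
    · refine Finset.card_biUnion_le.trans ?_
      rw [Finset.mul_sum]
      refine Finset.sum_le_sum fun g _ => (Finset.card_union_le _ _).trans ?_
      rw [Nat.mul_add]
      refine Nat.add_le_add (Finset.card_image_le.trans ?_) (Finset.card_image_le.trans ?_) <;>
        rw [Finset.card_product, Finset.card_univ, Fintype.card_coe] <;>
        exact Nat.mul_le_mul_left _ (hBad _ _)
    · intro y g hg hne
      have hF : ∀ z : O, z ∈ ((Finset.univ ×ˢ Finset.univ).image
          fun p : hK.toFinset × _ => pt p.1 p.2) ↔ ∃ c ∈ K, ∀ m, n ≤ m → z.1 m = c m := by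
        intro z
        constructor
        · intro hz
          obtain ⟨⟨c, v⟩, -, rfl⟩ := Finset.mem_image.1 hz
          exact ⟨c.1, hK.mem_toFinset.1 c.2, fun m hm => dif_neg (by omega)⟩
        · intro hz
          obtain ⟨c, hc⟩ := hpt z hz
          exact Finset.mem_image.2 ⟨(c, pre n z.1), by simp, hc⟩
      refine Finset.mem_biUnion.2 ⟨g, hg, ?_⟩
      by_cases hy : y ∈ (Finset.univ ×ˢ Finset.univ).image
          fun p : hK.toFinset × _ => pt p.1 p.2
      · refine Finset.mem_union_left _ ?_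
        obtain ⟨c, hc⟩ := hpt y ((hF y).1 hy)
        refine Finset.mem_image.2 ⟨(c, pre n y.1), by
          refine Finset.mem_product.2 ⟨Finset.mem_univ _, ?_⟩
          by_contra hb
          obtain ⟨c', hc', hc''⟩ := (hF y).1 hy
          refine hne (iff_of_true hy ((hF _).2 ⟨c', hc', fun m hm => ?_⟩))
          exact (hgood g n y.1 hb m hm).trans (hc'' m hm), hc⟩
      · have hgy : g • y ∈ (Finset.univ ×ˢ Finset.univ).image
            fun p : hK.toFinset × _ => pt p.1 p.2 := by
          by_contra h; exact hne (iff_of_false hy h)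
        refine Finset.mem_union_right _ ?_
        obtain ⟨c, hc⟩ := hpt (g • y) ((hF _).1 hgy)
        refine Finset.mem_image.2 ⟨(c, pre n (g • y).1), by
          refine Finset.mem_product.2 ⟨Finset.mem_univ _, ?_⟩
          by_contra hb
          obtain ⟨c', hc', hc''⟩ := (hF _).1 hgy
          refine hne (iff_of_true ((hF _).2 ⟨c', hc', fun m hm => ?_⟩) hgy)
          have h1 := hgood g⁻¹ n (g • y).1 hb m hm
          have h2 : ρ g⁻¹ (g • y).1 = y.1 := congrArg Subtype.val (inv_smul_smul g y)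
          rw [h2] at h1
          exact h1.trans (hc'' m hm), ?_⟩
        show g⁻¹ • pt c (pre n (g • y).1) = y
        rw [hc, inv_smul_smul]
  have hfin : (MulAction.orbit G (⟨x₀, x₀, Or.inl rfl, 0, fun _ _ => rfl⟩ : O)).Finite := by
    by_contra h
    exact hG (virtZ_of_boundedCuts hX h)
  refine (hfin.image Subtype.val).subset ?_
  rintro _ ⟨g, rfl⟩
  exact ⟨g • _, ⟨g, rfl⟩, rfl⟩

/-- Every image of a finitely presented periodic group is finite. -/
def TorsionBound (A : Type) [Group A] : Prop :=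
  ∀ (G : Type) [Group G] [Group.IsFinitelyPresented G], (∀ g : G, IsOfFinOrder g) →
    ∀ f : G →* A, Finite f.range

/-- The smallest class containing finite and abelian groups and the groups with a faithful
action of uniformly linear Schreier growth, closed under subgroups, extensions and directed
unions. -/
inductive Built : ∀ (A : Type) [Group A], Prop
  | abelian (A : Type) [Group A] (h : ∀ x y : A, x * y = y * x) : Built A
  | finite (A : Type) [Group A] [Finite A] : Built A
  | lin (A : Type) [Group A] (Y : Type) (ρ : A →* Equiv.Perm Y) (hi : Function.Injective ρ)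
      (hρ : LinSchreier ρ) : Built A
  | sub (A A' : Type) [Group A] [Group A'] (f : A →* A') (hf : Function.Injective f) :
      Built A' → Built A
  | ext (A : Type) [Group A] (N : Subgroup A) [N.Normal] : Built N → Built (A ⧸ N) → Built A
  | union (A : Type) [Group A] (ι : Type) [Nonempty ι] (U : ι → Subgroup A)
      (hdir : Directed (· ≤ ·) U) (htop : ∀ x, ∃ i, x ∈ U i) : (∀ i, Built (U i)) → Built A

theorem finite_range_iff {G A : Type} [Group G] [Group A] (f : G →* A) :
    Finite f.range ↔ f.ker.FiniteIndex := by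
  constructor
  · intro h
    haveI : Finite (G ⧸ f.ker) :=
      Finite.of_equiv _ (QuotientGroup.quotientKerEquivRange f).symm.toEquiv
    exact Subgroup.finiteIndex_of_finite_quotient
  · intro h
    exact Finite.of_equiv _ (QuotientGroup.quotientKerEquivRange f).toEquiv

theorem ker_comp' {G A B : Type} [Group G] [Group A] [Group B] {g : A →* B}
    (hg : Function.Injective g) (f : G →* A) : (g.comp f).ker = f.ker := by
  ext x
  simp only [MonoidHom.mem_ker, MonoidHom.comp_apply]
  exact map_eq_one_iff g hg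

theorem Built.torsionBound {A : Type} [Group A] (h : Built A) : TorsionBound A := by
  induction h with
  | abelian A h =>
    intro G _ _ hG f
    let _ : CommGroup f.range :=
      { (inferInstance : Group f.range) with mul_comm := fun x y => Subtype.ext (h x.1 y.1) }
    obtain ⟨d, φ, hφ, -⟩ := Group.IsFinitelyPresented.out (G := G)
    haveI : Group.FG G := Group.fg_of_surjective hφ
    refine CommGroup.finite_of_fg_isMulTorsion f.range ?_
    rintro ⟨_, g, rfl⟩
    exact f.rangeRestrict.isOfFinOrder (hG g)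
  | finite A => intro G _ _ _ f; infer_instance
  | lin A Y ρ hi hρ =>
    intro G _ _ hG f
    have hlin : LinSchreier (ρ.comp f) := fun T => by
      classical
      obtain ⟨C, hC⟩ := hρ (T.image f)
      refine ⟨C, fun y n => ?_⟩
      have hsub : {z : Y | ∃ l : List G, l.length ≤ n ∧ (∀ s ∈ l, s ∈ T ∨ s⁻¹ ∈ T) ∧
          (ρ.comp f) l.prod y = z} ⊆ {z : Y | ∃ l : List A, l.length ≤ n ∧
            (∀ s ∈ l, s ∈ T.image f ∨ s⁻¹ ∈ T.image f) ∧ ρ l.prod y = z} := by
        rintro z ⟨l, h1, h2, rfl⟩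
        refine ⟨l.map f, by simpa using h1, fun s hs => ?_, by rw [MonoidHom.comp_apply, ← map_list_prod]⟩
        obtain ⟨u, hu, rfl⟩ := List.mem_map.1 hs
        exact (h2 u hu).imp (Finset.mem_image_of_mem f) fun h =>
          map_inv f u ▸ Finset.mem_image_of_mem f h
      exact ⟨(hC y n).1.subset hsub, (Set.ncard_le_ncard hsub (hC y n).1).trans (hC y n).2⟩
    have := finite_range_of_linSchreier (not_virtZ_of_torsion hG) _ hlin
    rw [finite_range_iff] at this ⊢
    rwa [ker_comp' hi] at this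
  | sub A A' f hf _ ih =>
    intro G _ _ hG g
    have := ih G hG (f.comp g)
    rw [finite_range_iff] at this ⊢
    rwa [ker_comp' hf] at this
  | ext A N _ _ ihN ihQ =>
    intro G _ _ hG f
    set q := (QuotientGroup.mk' N).comp f with hq
    haveI : q.ker.FiniteIndex := (finite_range_iff q).1 (ihQ G hG q)
    haveI := fp_subgroup q.ker
    have hmem : ∀ x : q.ker, f x.1 ∈ N := fun x =>
      (QuotientGroup.eq_one_iff _).1 x.2
    let f' : q.ker →* N := (f.comp q.ker.subtype).codRestrict N hmem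
    haveI : f'.ker.FiniteIndex := (finite_range_iff f').1
      (ihN q.ker (fun x => Submonoid.isOfFinOrder_coe.1 (hG x.1)) f')
    rw [finite_range_iff]
    haveI : (f'.ker.map q.ker.subtype).FiniteIndex := ⟨by
      rw [Subgroup.index_map_subtype]
      exact mul_ne_zero Subgroup.FiniteIndex.index_ne_zero Subgroup.FiniteIndex.index_ne_zero⟩
    refine Subgroup.finiteIndex_of_le (H := f'.ker.map q.ker.subtype) ?_
    rintro _ ⟨x, hx, rfl⟩
    exact congrArg Subtype.val hx
  | union A ι U hdir htop _ ih =>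
    intro G _ _ hG f
    classical
    obtain ⟨d, φ, hφ, -⟩ := Group.IsFinitelyPresented.out (G := G)
    choose i hi using htop
    obtain ⟨j, hj⟩ := hdir.finset_le (Finset.univ.image fun k : Fin d => i (f (φ (FreeGroup.of k))))
    have hall : ∀ x, f x ∈ U j := by
      intro x
      obtain ⟨u, rfl⟩ := hφ x
      induction u using FreeGroup.induction_on with
      | C1 => simp
      | of k => exact hj _ (Finset.mem_image.2 ⟨k, Finset.mem_univ _, rfl⟩) (hi _)
      | inv_of k h => rw [map_inv, map_inv]; exact inv_mem h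
      | mul u v hu hv => rw [map_mul, map_mul]; exact mul_mem hu hv
    have := ih j G hG (f.codRestrict (U j) hall)
    rw [finite_range_iff] at this ⊢
    rwa [MonoidHom.ker_codRestrict] at this

end Vale.Agent.P192
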