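import Vale.Agent.P192.Wind

/-!
Filling the finite holes of a finite subset of an infinite transitive action; two filled sets with
the same local picture give a virtual surjection onto `ℤ`.
-/

namespace Vale.Agent.P192

open Vale.Agent.P196

variable {G : Type*} [Group G] {X : Type*} [MulAction G X] {d : ℕ}
  {φ : FreeGroup (Fin d) →* G}

theorem adj'_symm {F : Finset X} {a b : X} (h : Adj' φ F a b) : Adj' φ F b a := by
  obtain ⟨l, rfl, ha, hb⟩ := h
  exact ⟨inl' l, by rw [ev_inl', inv_smul_smul], hb, ha⟩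

/-- The points reachable outside `F`. -/
def Reach (φ : FreeGroup (Fin d) →* G) (F : Finset X) (y : X) : Set X :=
  {z | Relation.ReflTransGen (Adj' φ F) y z}

theorem reach_symm {F : Finset X} {y z : X} (h : z ∈ Reach φ F y) : y ∈ Reach φ F z := by
  have : Relation.ReflTransGen (Adj' φ F) y z := h
  induction this with
  | refl => exact Relation.ReflTransGen.refl
  | tail _ hbc ih => exact Relation.ReflTransGen.head (adj'_symm hbc) (ih ‹_›)

theorem reach_mono {F F' : Finset X} (h : F ⊆ F') (y : X) : Reach φ F' y ⊆ Reach φ F y :=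
  fun _ hz => Relation.ReflTransGen.mono
    (fun _ _ ⟨l, e, ha, hb⟩ => ⟨l, e, fun h' => ha (h h'), fun h' => hb (h h')⟩) _ _ hz

/-- The points where a generator crosses the boundary. -/
def edge (φ : FreeGroup (Fin d) →* G) (F : Finset X) : Set X :=
  {x | ∃ l : Fin d × Bool, ¬(x ∈ F ↔ ev φ [l] • x ∈ F)}

/-- `F` together with the finite components of its complement. -/
def fillSet (φ : FreeGroup (Fin d) →* G) (F : Finset X) : Set X :=
  ↑F ∪ {y | y ∉ F ∧ (Reach φ F y).Finite}

theorem fillSet_mono {F F' : Finset X} (h : F ⊆ F') : fillSet φ F ⊆ fillSet φ F' := by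
  rintro y (hy | ⟨-, hy⟩)
  · exact Or.inl (h hy)
  · by_cases hy' : y ∈ F'
    · exact Or.inl hy'
    · exact Or.inr ⟨hy', hy.subset (reach_mono h y)⟩

theorem edge_fillSet {F : Finset X} {x : X} {l : Fin d × Bool}
    (h : ¬(x ∈ fillSet φ F ↔ ev φ [l] • x ∈ fillSet φ F)) : x ∈ edge φ F := by
  refine ⟨l, fun hiff => h ?_⟩
  by_cases hx : x ∈ F
  · exact iff_of_true (Or.inl hx) (Or.inl (hiff.1 hx))
  · have hlx : ev φ [l] • x ∉ F := fun h' => hx (hiff.2 h')
    have hadj : Adj' φ F x (ev φ [l] • x) := ⟨l, rfl, hx, hlx⟩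
    have e : Reach φ F x = Reach φ F (ev φ [l] • x) := by
      ext z
      exact ⟨fun hz => Relation.ReflTransGen.head (adj'_symm hadj) hz,
        fun hz => Relation.ReflTransGen.head hadj hz⟩
    simp only [fillSet, Set.mem_union, Finset.mem_coe, hx, hlx, false_or, Set.mem_ofPred_eq,
      not_false_eq_true, true_and, e]

/-- A word which changes membership does so at some letter. -/
theorem crossing (P : Set X) : ∀ (w : List (Fin d × Bool)) (x : X),
    ¬(x ∈ P ↔ ev φ w • x ∈ P) → ∃ (v : List (Fin d × Bool)) (l : Fin d × Bool),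
      v.length ≤ w.length ∧ ¬(ev φ v • x ∈ P ↔ ev φ [l] • ev φ v • x ∈ P) := by
  intro w
  induction w with
  | nil => intro x h; simp [ev_nil] at h
  | cons l w ih =>
    intro x h
    by_cases hw : x ∈ P ↔ ev φ w • x ∈ P
    · refine ⟨w, l, by simp, fun hl => h ?_⟩
      rw [ev_cons φ l w, mul_smul]
      exact hw.trans hl
    · obtain ⟨v, l', hv, hv'⟩ := ih x hw
      exact ⟨v, l', hv.trans (by simp), hv'⟩

variable [MulAction.IsPretransitive G X] [Infinite X]

theorem exists_edge_of_finite_reach (hφ : Function.Surjective φ) {F : Finset X} {y : X}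
    (hy : y ∉ F) (hfin : (Reach φ F y).Finite) : ∃ c ∈ Reach φ F y, c ∈ edge φ F := by
  by_contra hc
  push Not at hc
  have key : ∀ w, ev φ w • y ∈ Reach φ F y ∧ ev φ w • y ∉ F := by
    intro w
    induction w with
    | nil => exact ⟨by rw [ev_nil, one_smul]; exact Relation.ReflTransGen.refl,
        by rw [ev_nil, one_smul]; exact hy⟩
    | cons l w ih =>
      rw [ev_cons φ l w, mul_smul]
      have h1 : ev φ [l] • ev φ w • y ∉ F := fun h => hc _ ih.1 ⟨l, by simp [h, ih.2]⟩
      exact ⟨Relation.ReflTransGen.tail ih.1 ⟨l, rfl, ih.2, h1⟩, h1⟩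
  refine Set.infinite_univ (α := X) (hfin.subset fun z _ => ?_)
  obtain ⟨g, rfl⟩ := MulAction.exists_smul_eq G y z
  obtain ⟨u, rfl⟩ := hφ g
  have := (key (FreeGroup.toWord u)).1
  rwa [ev, FreeGroup.mk_toWord] at this

theorem edge_finite (F : Finset X) : (edge φ F).Finite := by
  classical
  refine Set.Finite.subset ((F ∪ Finset.univ.biUnion fun l : Fin d × Bool =>
    F.image fun z => (ev φ [l])⁻¹ • z).finite_toSet) ?_
  rintro x ⟨l, hl⟩
  by_cases hx : x ∈ F
  · simp [hx]
  · simp only [hx, false_iff, not_not] at hl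
    refine Finset.mem_union_right _ (Finset.mem_biUnion.2 ⟨l, Finset.mem_univ _, ?_⟩)
    exact Finset.mem_image.2 ⟨_, hl, inv_smul_smul _ _⟩

theorem fillSet_finite (hφ : Function.Surjective φ) (F : Finset X) : (fillSet φ F).Finite := by
  refine F.finite_toSet.union (Set.Finite.subset
    (Set.Finite.biUnion ((edge_finite (φ := φ) F).subset
      (fun c (hc : c ∈ edge φ F ∧ (Reach φ F c).Finite) => hc.1)) (fun c hc => hc.2)) ?_)
  rintro y ⟨hy, hfin⟩
  obtain ⟨c, hc, hce⟩ := exists_edge_of_finite_reach hφ hy hfin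
  have hsub : Reach φ F c ⊆ Reach φ F y := fun z hz => Relation.ReflTransGen.trans hc hz
  exact Set.mem_biUnion (x := c) ⟨hce, hfin.subset hsub⟩ (reach_symm hc)

/-- The filled set. -/
noncomputable def fill (hφ : Function.Surjective φ) (F : Finset X) : Finset X :=
  (fillSet_finite hφ F).toFinset

theorem mem_fill {hφ : Function.Surjective φ} {F : Finset X} {y : X} :
    y ∈ fill hφ F ↔ y ∈ fillSet φ F := Set.Finite.mem_toFinset _

theorem subset_fill (hφ : Function.Surjective φ) (F : Finset X) : F ⊆ fill hφ F :=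
  fun _ hy => mem_fill.2 (Or.inl hy)

theorem nbd_fill {hφ : Function.Surjective φ} {L : ℕ} {F : Finset X} {x : X}
    (hx : x ∈ nbd φ L (fill hφ F)) :
    ∃ (v : List (Fin d × Bool)) (c : X), v.length ≤ L + 2 ∧ c ∈ edge φ F ∧ x = ev φ v • c := by
  obtain ⟨w, hw, hne⟩ := hx
  obtain ⟨v, l, hv, hv'⟩ := crossing ((fill hφ F : Set X)) w x hne
  refine ⟨FreeGroup.invRev v, ev φ v • x, by simp; omega, edge_fillSet (l := l) ?_, ?_⟩
  · simpa only [Finset.mem_coe, mem_fill] using hv'
  · rw [ev_invRev, inv_smul_smul]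

/-- Two filled sets with the same local picture. -/
theorem virtZ_of_fill (hφ : Function.Surjective φ) {R : Set (FreeGroup (Fin d))}
    (hker : Subgroup.normalClosure R = φ.ker) {L : ℕ}
    (hL : ∀ r ∈ R, (FreeGroup.toWord r).length ≤ L) {F F' : Finset X} (hne : F.Nonempty)
    (hsub : F ⊆ F') (hball : ∀ (w : List (Fin d × Bool)) (x : X), w.length ≤ L + 2 →
      x ∈ nbd φ L (fill hφ F) → ev φ w • x ∈ F')
    {B : ℕ} {e e' : X → Fin (B + 1)} (he : Set.InjOn e (nbd φ L (fill hφ F)))
    (he' : Set.InjOn e' (nbd φ L (fill hφ F')))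
    (hp : pat φ L B (fill hφ F) e = pat φ L B (fill hφ F') e') : VirtZ G := by
  have : Nonempty X := inferInstance
  obtain ⟨f, hf, hfl⟩ := pat_match φ he he' hp
  obtain ⟨f', hf', hfl'⟩ := pat_match φ he' he hp.symm
  let Γ : Glue φ L (fill hφ F) (fill hφ F') :=
    { ball := fun w x hw hx => by
        rcases hx with hx | hx
        · by_cases hin : ev φ w • x ∈ fill hφ F
          · exact mem_fill.2 (fillSet_mono hsub (mem_fill.1 hin))
          · refine subset_fill hφ F' (?_)
            have : x ∈ nbd φ L (fill hφ F) := ⟨w, hw, by simp [hx, hin]⟩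
            exact hball w x hw this
        · exact subset_fill hφ F' (hball w x hw hx)
      pi := f
      rho := f'
      pi_mem := fun p hp => ⟨(hf p hp).1,
        he (hf' _ (hf p hp).1).1 hp (by rw [(hf' _ (hf p hp).1).2.1, (hf p hp).2.1]),
        (hf p hp).2.2⟩
      rho_mem := fun q hq => ⟨(hf' q hq).1,
        he' (hf _ (hf' q hq).1).1 hq (by rw [(hf _ (hf' q hq).1).2.1, (hf' q hq).2.1]),
        (hf' q hq).2.2.symm⟩
      pi_step := hfl
      rho_step := hfl' }
  -- a middle point next to the inner boundary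
  obtain ⟨y₀, h1, h2⟩ : ∃ y, y ∉ fill hφ F ∧ y ∈ fill hφ F' := by
    obtain ⟨x₀, hx₀⟩ := hne
    have hout : ∃ z, z ∉ fill hφ F := Infinite.exists_notMem_finset _
    obtain ⟨z, hz⟩ := hout
    obtain ⟨g, rfl⟩ := MulAction.exists_smul_eq G x₀ z
    obtain ⟨u, rfl⟩ := hφ g
    have hne' : ¬(x₀ ∈ (fill hφ F : Set X) ↔
        ev φ (FreeGroup.toWord u) • x₀ ∈ (fill hφ F : Set X)) := by
      rw [ev, FreeGroup.mk_toWord]
      simp [subset_fill hφ F hx₀, hz]
    obtain ⟨v, l, -, hvl⟩ := crossing _ _ _ hne'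
    set c := ev φ v • x₀
    simp only [Finset.mem_coe] at hvl
    by_cases hc : c ∈ fill hφ F
    · have hlc : ev φ [l] • c ∉ fill hφ F := fun h => hvl (iff_of_true hc h)
      exact ⟨_, hlc, Γ.ball [l] c (by simp) (Or.inl hc)⟩
    · have hlc : ev φ [l] • c ∈ fill hφ F := by
        by_contra h; exact hvl (iff_of_false hc h)
      refine ⟨c, hc, ?_⟩
      have := Γ.ball [inl' l] _ (by simp) (Or.inl hlc)
      rwa [ev_inl', inv_smul_smul] at this
  refine virtZ_of_glue hφ hker hL Γ h1 h2 1 one_ne_zero fun y => ?_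
  have hy := y.2.1
  rw [mem_fill] at hy
  have hinf : (Reach φ F y.1).Infinite := fun hfin => hy (Or.inr ⟨fun h => hy (Or.inl h), hfin⟩)
  obtain ⟨z, hz, hz'⟩ := hinf.exists_notMem_finset (fill hφ F')
  -- a path outside `F` stays outside the filled set
  have hconv : Relation.ReflTransGen (Adj' φ (fill hφ F)) y.1 z := by
    suffices ∀ b, Relation.ReflTransGen (Adj' φ F) y.1 b →
        Relation.ReflTransGen (Adj' φ (fill hφ F)) y.1 b ∧ b ∉ fill hφ F from (this z hz).1
    intro b hb
    induction hb with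
    | refl => exact ⟨Relation.ReflTransGen.refl, y.2.1⟩
    | @tail b c hyb hbc ih =>
      obtain ⟨l, rfl, hb', hc'⟩ := hbc
      have hc : ev φ [l] • b ∉ fill hφ F := by
        rw [mem_fill]
        rintro (h | ⟨-, h⟩)
        · exact hc' h
        · refine hinf (h.subset fun u hu => ?_)
          exact Relation.ReflTransGen.trans
            (reach_symm (Relation.ReflTransGen.tail hyb ⟨l, rfl, hb', hc'⟩)) hu
      exact ⟨Relation.ReflTransGen.tail ih.1 ⟨l, rfl, ih.2, hc⟩, hc⟩
  rcases wind_up Γ y.2.2 hconv with h | ⟨h, -⟩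
  · exact h
  · exact absurd h hz'

end Vale.Agent.P192
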