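import Vale.Agent.P192.Fill

/-!
Filling relative to a target point in a finite transitive action.
-/

namespace Vale.Agent.P192

open Vale.Agent.P196

variable {G : Type*} [Group G] {X : Type*} [MulAction G X] {d : ℕ}
  {φ : FreeGroup (Fin d) →* G} [Finite X]

/-- `F` together with the points which it separates from `z`. -/
noncomputable def fillT (φ : FreeGroup (Fin d) →* G) (z : X) (F : Finset X) : Finset X :=
  (Set.toFinite (↑F ∪ {y | y ∉ F ∧ z ∉ Reach φ F y})).toFinset

theorem mem_fillT {z : X} {F : Finset X} {y : X} :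
    y ∈ fillT φ z F ↔ y ∈ F ∨ (y ∉ F ∧ z ∉ Reach φ F y) := Set.Finite.mem_toFinset _

theorem fillT_mono {z : X} {F F' : Finset X} (h : F ⊆ F') : fillT φ z F ⊆ fillT φ z F' := by
  intro y hy
  rw [mem_fillT] at hy ⊢
  by_cases hy' : y ∈ F'
  · exact Or.inl hy'
  · exact Or.inr ⟨hy', fun hz =>
      (hy.resolve_left fun h' => hy' (h h')).2 (reach_mono h y hz)⟩

theorem nbd_fillT {z : X} {L : ℕ} {F : Finset X} {x : X}
    (hx : x ∈ nbd φ L (fillT φ z F)) :
    ∃ (v : List (Fin d × Bool)) (c : X), v.length ≤ L + 2 ∧ c ∈ edge φ F ∧ x = ev φ v • c := by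
  obtain ⟨w, hw, hne⟩ := hx
  obtain ⟨v, l, hv, hv'⟩ := crossing ((fillT φ z F : Set X)) w x hne
  refine ⟨FreeGroup.invRev v, ev φ v • x, by simp; omega, ⟨l, fun hiff => hv' ?_⟩, ?_⟩
  · set c := ev φ v • x
    simp only [Finset.mem_coe, mem_fillT]
    by_cases hc : c ∈ F
    · exact iff_of_true (Or.inl hc) (Or.inl (hiff.1 hc))
    · have hlc : ev φ [l] • c ∉ F := fun h' => hc (hiff.2 h')
      have hadj : Adj' φ F c (ev φ [l] • c) := ⟨l, rfl, hc, hlc⟩
      have e : z ∈ Reach φ F c ↔ z ∈ Reach φ F (ev φ [l] • c) :=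
        ⟨fun hz => Relation.ReflTransGen.head (adj'_symm hadj) hz,
          fun hz => Relation.ReflTransGen.head hadj hz⟩
      simp only [hc, hlc, false_or, not_false_eq_true, true_and, e]
  · rw [ev_invRev, inv_smul_smul]

variable [MulAction.IsPretransitive G X]

/-- Two filled sets with the same local picture, both avoiding the target. -/
theorem virtZ_of_fillT (hφ : Function.Surjective φ) {R : Set (FreeGroup (Fin d))}
    (hker : Subgroup.normalClosure R = φ.ker) {L : ℕ}
    (hL : ∀ r ∈ R, (FreeGroup.toWord r).length ≤ L) {z : X} {F F' : Finset X} (hne : F.Nonempty)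
    (hsub : F ⊆ F') (hz : z ∉ F') (hball : ∀ (w : List (Fin d × Bool)) (x : X), w.length ≤ L + 2 →
      x ∈ nbd φ L (fillT φ z F) → ev φ w • x ∈ F')
    {B : ℕ} {e e' : X → Fin (B + 1)} (he : Set.InjOn e (nbd φ L (fillT φ z F)))
    (he' : Set.InjOn e' (nbd φ L (fillT φ z F')))
    (hp : pat φ L B (fillT φ z F) e = pat φ L B (fillT φ z F') e') : VirtZ G := by
  have : Nonempty X := ⟨z⟩
  obtain ⟨f, hf, hfl⟩ := pat_match φ he he' hp
  obtain ⟨f', hf', hfl'⟩ := pat_match φ he' he hp.symm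
  have hsub' : F' ⊆ fillT φ z F' := fun y hy => mem_fillT.2 (Or.inl hy)
  let Γ : Glue φ L (fillT φ z F) (fillT φ z F') :=
    { ball := fun w x hw hx => by
        rcases hx with hx | hx
        · by_cases hin : ev φ w • x ∈ fillT φ z F
          · exact fillT_mono hsub hin
          · refine hsub' (?_)
            have : x ∈ nbd φ L (fillT φ z F) := ⟨w, hw, by simp [hx, hin]⟩
            exact hball w x hw this
        · exact hsub' (hball w x hw hx)
      pi := f
      rho := f'
      pi_mem := fun p hp => ⟨(hf p hp).1,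
        he (hf' _ (hf p hp).1).1 hp (by rw [(hf' _ (hf p hp).1).2.1, (hf p hp).2.1]),
        (hf p hp).2.2⟩
      rho_mem := fun q hq => ⟨(hf' q hq).1,
        he' (hf _ (hf' q hq).1).1 hq (by rw [(hf _ (hf' q hq).1).2.1, (hf' q hq).2.1]),
        (hf' q hq).2.2.symm⟩
      pi_step := hfl
      rho_step := hfl' }
  have hzF : z ∉ fillT φ z F' := by
    rw [mem_fillT]
    rintro (h | ⟨-, h⟩)
    · exact hz h
    · exact h Relation.ReflTransGen.refl
  obtain ⟨y₀, h1, h2⟩ : ∃ y, y ∉ fillT φ z F ∧ y ∈ fillT φ z F' := by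
    obtain ⟨x₀, hx₀⟩ := hne
    obtain ⟨g, hg⟩ := MulAction.exists_smul_eq G x₀ z
    obtain ⟨u, rfl⟩ := hφ g
    have hne' : ¬(x₀ ∈ (fillT φ z F : Set X) ↔
        ev φ (FreeGroup.toWord u) • x₀ ∈ (fillT φ z F : Set X)) := by
      rw [ev, FreeGroup.mk_toWord, hg]
      simp only [Finset.mem_coe]
      exact fun h => hzF (fillT_mono hsub (h.1 (mem_fillT.2 (Or.inl hx₀))))
    obtain ⟨v, l, -, hvl⟩ := crossing _ _ _ hne'
    set c := ev φ v • x₀
    simp only [Finset.mem_coe] at hvl
    by_cases hc : c ∈ fillT φ z F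
    · have hlc : ev φ [l] • c ∉ fillT φ z F := fun h => hvl (iff_of_true hc h)
      exact ⟨_, hlc, Γ.ball [l] c (by simp) (Or.inl hc)⟩
    · have hlc : ev φ [l] • c ∈ fillT φ z F := by
        by_contra h; exact hvl (iff_of_false hc h)
      refine ⟨c, hc, ?_⟩
      have := Γ.ball [inl' l] _ (by simp) (Or.inl hlc)
      rwa [ev_inl', inv_smul_smul] at this
  refine virtZ_of_glue hφ hker hL Γ h1 h2 1 one_ne_zero fun y => ?_
  have hyz : z ∈ Reach φ F y.1 := by
    by_contra h
    exact y.2.1 (mem_fillT.2 (Or.inr ⟨fun h' => y.2.1 (mem_fillT.2 (Or.inl h')), h⟩))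
  have hconv : Relation.ReflTransGen (Adj' φ (fillT φ z F)) y.1 z := by
    suffices ∀ b, Relation.ReflTransGen (Adj' φ F) y.1 b →
        Relation.ReflTransGen (Adj' φ (fillT φ z F)) y.1 b ∧ b ∉ fillT φ z F from (this z hyz).1
    intro b hb
    induction hb with
    | refl => exact ⟨Relation.ReflTransGen.refl, y.2.1⟩
    | @tail b c hyb hbc ih =>
      obtain ⟨l, rfl, hb', hc'⟩ := hbc
      have hc : ev φ [l] • b ∉ fillT φ z F := by
        rw [mem_fillT]
        rintro (h | ⟨-, h⟩)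
        · exact hc' h
        · exact h (Relation.ReflTransGen.trans
            (reach_symm (Relation.ReflTransGen.tail hyb ⟨l, rfl, hb', hc'⟩)) hyz)
      exact ⟨Relation.ReflTransGen.tail ih.1 ⟨l, rfl, ih.2, hc⟩, hc⟩
  rcases wind_up Γ y.2.2 hconv with h | ⟨h, -⟩
  · exact h
  · exact absurd h hzF

end Vale.Agent.P192
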