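import Vale.Agent.P192.FP

/-!
From an infinite finitely presented periodic group to one generated by an involution and one
further element, by a wreath product with a finite dihedral group.
-/

namespace Vale.Agent.P192

open scoped commutatorElement
open DihedralGroup

universe u v

/-- Exponent map of a group: every element has finite order. -/
def Periodic (G : Type u) [Group G] : Prop := ∀ g : G, IsOfFinOrder g

/-- A torsion group with finitely many generators whose triple commutators vanish is finite. -/
lemma finite_of_triple {G : Type u} [Group G] {ι : Type v} [Finite ι] (g : ι → G)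
    (hg : Subgroup.closure (Set.range g) = ⊤) (hper : Periodic G)
    (h3 : ∀ i j l, ⁅⁅g i, g j⁆, g l⁆ = 1) : Finite G := by
  classical
  have : Group.FG G := Group.fg_iff.2 ⟨Set.range g, hg, Set.finite_range _⟩
  let Z := Subgroup.center G
  have hcentral : ∀ z : G, (∀ l, z * g l = g l * z) → z ∈ Z := by
    intro z hz
    rw [Subgroup.mem_center_iff]
    intro y
    have hy : y ∈ Subgroup.closure (Set.range g) := hg ▸ Subgroup.mem_top y
    induction hy using Subgroup.closure_induction with
    | mem y hy => obtain ⟨l, rfl⟩ := hy; exact (hz l).symm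
    | one => simp
    | mul x y _ _ hx hy => exact (Commute.mul_left (a := x) (b := y) hx hy)
    | inv x _ hx => exact (Commute.inv_left (a := x) hx)
  have hc : ∀ i j, ⁅g i, g j⁆ ∈ Z := fun i j =>
    hcentral _ fun l => commutatorElement_eq_one_iff_mul_comm.1 (h3 i j l)
  let q := QuotientGroup.mk' Z
  have hgen : Subgroup.closure (Set.range (q ∘ g)) = ⊤ := by
    rw [Set.range_comp, ← MonoidHom.map_closure, hg,
      Subgroup.map_top_of_surjective _ (QuotientGroup.mk'_surjective Z)]
  have hcomm : ∀ x y : G ⧸ Z, x * y = y * x := by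
    have h1 : ∀ i, ∀ y : G ⧸ Z, Commute y (q (g i)) := by
      intro i y
      have hy : y ∈ Subgroup.closure (Set.range (q ∘ g)) := hgen ▸ Subgroup.mem_top y
      induction hy using Subgroup.closure_induction with
      | mem y hy =>
        obtain ⟨j, rfl⟩ := hy
        refine commutatorElement_eq_one_iff_mul_comm.1 ?_
        rw [Function.comp_apply, ← map_commutatorElement]
        exact (QuotientGroup.eq_one_iff _).2 (hc j i)
      | one => exact Commute.one_left _
      | mul x y _ _ hx hy => exact hx.mul_left hy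
      | inv x _ hx => exact hx.inv_left
    intro x y
    have hy : y ∈ Subgroup.closure (Set.range (q ∘ g)) := hgen ▸ Subgroup.mem_top y
    induction hy using Subgroup.closure_induction with
    | mem y hy => obtain ⟨i, rfl⟩ := hy; exact h1 i x
    | one => simp
    | mul a b _ _ ha hb => exact (Commute.mul_right (a := x) ha hb)
    | inv a _ ha => exact (Commute.inv_right (a := x) ha)
  have : Finite (G ⧸ Z) := by
    let : CommGroup (G ⧸ Z) := { (inferInstance : Group (G ⧸ Z)) with mul_comm := hcomm }
    refine CommGroup.finite_of_fg_isMulTorsion (G := G ⧸ Z) ?_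
    intro x
    obtain ⟨y, rfl⟩ := QuotientGroup.mk'_surjective Z x
    exact (QuotientGroup.mk' Z).isOfFinOrder (hper y)
  have : Z.FiniteIndex := Subgroup.finiteIndex_iff_finite_quotient.2 inferInstance
  have : Finite Z := by
    let : CommGroup Z :=
      { (inferInstance : Group Z) with
        mul_comm := fun a b => Subtype.ext ((Subgroup.mem_center_iff.1 b.2 a.1)) }
    refine CommGroup.finite_of_fg_isMulTorsion (G := Z) ?_
    intro x
    have h := hper (x : G)
    exact (Submonoid.isOfFinOrder_coe (H := Z.toSubmonoid) (x := x)).1 h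
  exact Finite.of_subgroup_quotient Z

lemma pow_two_add_eq {a b i j : ℕ} (hij : i ≠ j) (h : 2 ^ a + 2 ^ j = 2 ^ b + 2 ^ i) :
    a = i ∧ b = j := by
  have low : ∀ {a b i j : ℕ}, i < j → 2 ^ a + 2 ^ j = 2 ^ b + 2 ^ i → a = i ∧ b = j := by
    intro a b i j hij h
    have hab : a < b := by
      by_contra hba
      have h1 := Nat.pow_le_pow_right (show 0 < 2 by norm_num) (not_lt.1 hba)
      have h2 := Nat.pow_lt_pow_right (show 1 < 2 by norm_num) hij
      omega
    have hai : a = i := by
      rcases lt_trichotomy a i with hai | hai | hai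
      · have d : 2 ^ (a + 1) ∣ 2 ^ a := (Nat.dvd_add_left (pow_dvd_pow 2 (hai.trans hij))).1
          (h ▸ dvd_add (pow_dvd_pow 2 hab) (pow_dvd_pow 2 hai))
        have := (Nat.pow_dvd_pow_iff_le_right (show 1 < 2 by norm_num)).1 d
        omega
      · exact hai
      · have d : 2 ^ (i + 1) ∣ 2 ^ i := (Nat.dvd_add_right (pow_dvd_pow 2 (hai.trans hab))).1
          (h ▸ dvd_add (pow_dvd_pow 2 hai) (pow_dvd_pow 2 hij))
        have := (Nat.pow_dvd_pow_iff_le_right (show 1 < 2 by norm_num)).1 d
        omega
    refine ⟨hai, Nat.pow_right_injective (le_refl 2) ?_⟩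
    subst hai
    change 2 ^ b = 2 ^ j
    omega
  rcases lt_or_gt_of_ne hij with hl | hl
  · exact low hl h
  · have := low (a := b) (b := a) hl h.symm
    exact ⟨this.2, this.1⟩

section Wreath

variable {G : Type u} [Group G] (n : ℕ)

/-- The wreath product of `G` with the dihedral group of order `2 * n`. -/
abbrev W (G : Type u) [Group G] (n : ℕ) : Type u := RegularWreathProduct G (DihedralGroup n)

/-- The base group of the wreath product. -/
def inlN : (DihedralGroup n → G) →* W G n where
  toFun f := ⟨f, 1⟩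
  map_one' := rfl
  map_mul' f f' := by ext <;> simp

lemma inlN_injective : Function.Injective (inlN (G := G) n) := fun f f' h => by
  simpa [inlN] using congrArg RegularWreathProduct.left h

lemma range_inlN : (inlN (G := G) n).range = (RegularWreathProduct.rightHom : W G n →* _).ker := by
  ext x
  constructor
  · rintro ⟨f, rfl⟩; rfl
  · intro hx; exact ⟨x.left, RegularWreathProduct.ext rfl hx.symm⟩

/-- An involution lying over the reflection `sr 0`. -/
def invol (h : ZMod n → G) : W G n :=
  ⟨fun y => match y with | .r i => h i | .sr i => (h i)⁻¹, sr 0⟩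

lemma invol_mul_self (h : ZMod n → G) : invol n h * invol n h = 1 := by
  ext y
  · cases y <;> simp [invol, inv_sr, sr_mul_r, sr_mul_sr]
  · simp [invol, sr_mul_sr]

/-- The rotation. -/
def rot (d : ZMod n) : W G n := RegularWreathProduct.inl (r d)

/-- Translation of functions on the dihedral group. -/
def sh (d : ZMod n) (f : DihedralGroup n → G) : DihedralGroup n → G := fun y => f (r (-d) * y)

lemma rot_conj (d : ZMod n) (f : DihedralGroup n → G) :
    rot n d * inlN n f * (rot n d)⁻¹ = inlN n (sh n d f) := by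
  ext y
  · simp [rot, inlN, sh, inv_r]
  · simp [rot, inlN, inv_r, r_mul_r]

lemma invol_conj (h : ZMod n → G) (f : DihedralGroup n → G) :
    invol n h * inlN n f * (invol n h)⁻¹ = inlN n
      (fun y => (invol n h).left y * f (sr 0 * y) * ((invol n h).left y)⁻¹) := by
  have e : (invol n h)⁻¹ = invol n h := inv_eq_of_mul_eq_one_right (invol_mul_self n h)
  rw [e]
  ext y
  · cases y <;> simp [invol, inlN, inv_sr, sr_mul_r, sr_mul_sr, mul_assoc]
  · simp [invol, inlN, sr_mul_sr]

/-- The kernel element `(a * b) ^ 2`. -/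
def kerElt (h : ZMod n → G) : DihedralGroup n → G := fun y => match y with
  | .r i => h i * (h (i + 1))⁻¹
  | .sr i => (h i)⁻¹ * h (i - 1)

lemma kerElt_eq (h : ZMod n → G) :
    invol n h * rot n 1 * invol n h * rot n 1 = inlN n (kerElt n h) := by
  ext y
  · cases y with
    | r i =>
      simp [invol, rot, inlN, kerElt, inv_sr, inv_r, sr_mul_r, sr_mul_sr, mul_inv_rev, r_mul_sr,
        add_comm]
    | sr i =>
      simp [invol, rot, inlN, kerElt, inv_sr, inv_r, sr_mul_r, sr_mul_sr, mul_inv_rev, r_mul_r,
        sub_eq_add_neg, add_comm]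
  · simp [invol, rot, inlN, sr_mul_r, sr_mul_sr, r_mul_r]

end Wreath

set_option maxHeartbeats 1000000 in
/-- The main construction. -/
theorem exists_two_gen {G : Type u} [Group G] [hfp : Group.IsFinitelyPresented G]
    (hper : Periodic G) [Infinite G] :
    ∃ (n : ℕ) (_ : NeZero n) (a b : W G n), a * a = 1 ∧
      (Subgroup.closure {a, b}).FiniteIndex := by
  classical
  obtain ⟨k, φ, hφ, -⟩ := hfp.out
  let g : Fin k → G := fun i => φ (FreeGroup.of i)
  have hg : Subgroup.closure (Set.range g) = ⊤ := by
    change Subgroup.closure (Set.range (φ ∘ FreeGroup.of)) = ⊤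
    rw [Set.range_comp, ← MonoidHom.map_closure, FreeGroup.closure_range_of,
      Subgroup.map_top_of_surjective _ hφ]
  let n := 2 ^ (4 * k + 3)
  have : NeZero n := ⟨by positivity⟩
  let gen : Fin (2 * k) → G := fun u => g ⟨u.1 / 2, by omega⟩
  let In : Fin (2 * k) → ℕ → Prop := fun u v =>
    2 ^ (2 * u.1 + 1) < v ∧ v ≤ 2 ^ (2 * u.1 + 2)
  have huniq : ∀ u u' v, In u v → In u' v → u = u' := by
    intro u u' v h h'
    by_contra hne
    rcases lt_or_gt_of_ne (fun e => hne (Fin.ext e) : u.1 ≠ u'.1) with hl | hl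
    · have := Nat.pow_le_pow_right (show 0 < 2 by norm_num)
        (show 2 * u.1 + 2 ≤ 2 * u'.1 + 1 by omega)
      simp only [In] at h h'; omega
    · have := Nat.pow_le_pow_right (show 0 < 2 by norm_num)
        (show 2 * u'.1 + 2 ≤ 2 * u.1 + 1 by omega)
      simp only [In] at h h'; omega
  let h : ZMod n → G := fun x => if hx : ∃ u, In u x.val then gen hx.choose else 1
  have hin : ∀ u (x : ZMod n), In u x.val → h x = gen u := by
    intro u x hx
    have he : ∃ u, In u x.val := ⟨u, hx⟩
    simp only [h, dif_pos he]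
    exact congrArg gen (huniq _ _ _ he.choose_spec hx)
  have hout : ∀ x : ZMod n, (∀ u, ¬ In u x.val) → h x = 1 := by
    intro x hx
    simp [h, hx]
  let a := invol n h
  let b : W G n := rot n 1
  let S := Subgroup.closure {a, b}
  refine ⟨n, inferInstance, a, b, invol_mul_self n h, ?_⟩
  have ha : a ∈ S := Subgroup.subset_closure (by simp)
  have hb : b ∈ S := Subgroup.subset_closure (by simp)
  have hrot : ∀ d : ZMod n, rot n d ∈ S := by
    intro d
    have : rot (G := G) n d = b ^ d.val := by
      simp only [b, rot, ← map_pow, r_one_pow]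
      simp
    rw [this]
    exact pow_mem hb _
  let M : Subgroup (DihedralGroup n → G) := S.comap (inlN n)
  have hsh : ∀ d f, f ∈ M → sh n d f ∈ M := by
    intro d f hf
    change inlN n (sh n d f) ∈ S
    rw [← rot_conj]
    exact mul_mem (mul_mem (hrot d) hf) (inv_mem (hrot d))
  let F := kerElt n h
  have hF : F ∈ M := by
    change inlN n F ∈ S
    rw [← kerElt_eq]
    exact mul_mem (mul_mem (mul_mem ha hb) ha) hb
  -- the exponents at which the kernel element is nontrivial
  have hpow : ∀ e, e ≤ 4 * k → ((2 ^ e : ℕ) : ZMod n).val = 2 ^ e := fun e he =>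
    ZMod.val_natCast_of_lt (Nat.pow_lt_pow_right (by norm_num) (by omega))
  have hsupp : ∀ x : ZMod n, F (r x) ≠ 1 → ∃ e, e ≤ 4 * k ∧ x = ((2 ^ e : ℕ) : ZMod n) := by
    intro x hx
    by_contra hc
    apply hx
    have hv : x.val < n := ZMod.val_lt x
    have hlast : ∀ u : Fin (2 * k), 2 ^ (2 * u.1 + 2) + 1 < n := by
      intro u
      have h1 := Nat.pow_le_pow_right (show 0 < 2 by norm_num)
        (show 2 * u.1 + 2 + 1 ≤ 4 * k + 3 by omega)
      have h2 : 2 ≤ 2 ^ (2 * u.1 + 2) := Nat.le_self_pow (by omega) 2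
      rw [pow_succ] at h1
      simp only [n]; omega
    have hnext : ∀ u, In u x.val ↔ In u (x + 1).val := by
      intro u
      have hne1 : x.val ≠ 2 ^ (2 * u.1 + 1) := fun e =>
        hc ⟨2 * u.1 + 1, by omega, by rw [← e, ZMod.natCast_rightInverse x]⟩
      have hne2 : x.val ≠ 2 ^ (2 * u.1 + 2) := fun e =>
        hc ⟨2 * u.1 + 2, by omega, by rw [← e, ZMod.natCast_rightInverse x]⟩
      rcases lt_or_ge (x.val + 1) n with hlt | hge
      · have e : (x + 1).val = x.val + 1 := by
          have : x + 1 = ((x.val + 1 : ℕ) : ZMod n) := by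
            push_cast; rw [ZMod.natCast_rightInverse x]
          rw [this, ZMod.val_natCast_of_lt hlt]
        simp only [In, e]; omega
      · have e : (x + 1).val = 0 := by
          have : x + 1 = ((x.val + 1 : ℕ) : ZMod n) := by
            push_cast; rw [ZMod.natCast_rightInverse x]
          rw [this, show x.val + 1 = n by omega, ZMod.natCast_self, ZMod.val_zero]
        have := hlast u
        have := Nat.two_pow_pos (2 * u.1 + 1)
        simp only [In, e]; omega
    by_cases he : ∃ u, In u x.val
    · obtain ⟨u, hu⟩ := he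
      simp [F, kerElt, hin u x hu, hin u _ ((hnext u).1 hu)]
    · simp only [not_exists] at he
      simp [F, kerElt, hout x he, hout _ (fun u hu => he u ((hnext u).2 hu))]
  have hsupp' : ∀ x : ZMod n, F (sr x) ≠ 1 →
      ∃ e, e ≤ 4 * k ∧ x - 1 = ((2 ^ e : ℕ) : ZMod n) := by
    intro x hx
    refine hsupp _ fun e => hx ?_
    simp only [F, kerElt, sub_add_cancel] at e ⊢
    rw [mul_inv_eq_one.1 e, inv_mul_cancel]
  let pt : Fin (2 * k) → ZMod n := fun u => ((2 ^ (2 * u.1 + 2) : ℕ) : ZMod n)
  have hval : ∀ u, F (r (pt u)) = gen u := by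
    intro u
    have hv := hpow (2 * u.1 + 2) (by omega)
    have hpos := Nat.pow_lt_pow_right (show 1 < 2 by norm_num)
      (show 2 * u.1 + 1 < 2 * u.1 + 2 by omega)
    have h1 : h (pt u) = gen u := hin u _ (by simp only [In, pt, hv]; omega)
    have h2 : h (pt u + 1) = 1 := by
      refine hout _ fun u' hu' => ?_
      have hlt : 2 ^ (2 * u.1 + 2) + 1 < n := by
        have h1 := Nat.pow_le_pow_right (show 0 < 2 by norm_num)
          (show 2 * u.1 + 2 + 1 ≤ 4 * k + 3 by omega)
        have h2 : 2 ≤ 2 ^ (2 * u.1 + 2) := Nat.le_self_pow (by omega) 2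
        rw [pow_succ] at h1
        simp only [n]; omega
      have e : (pt u + 1).val = 2 ^ (2 * u.1 + 2) + 1 := by
        have : pt u + 1 = ((2 ^ (2 * u.1 + 2) + 1 : ℕ) : ZMod n) := by simp [pt]
        rw [this, ZMod.val_natCast_of_lt hlt]
      simp only [In, e] at hu'
      rcases lt_trichotomy u'.1 u.1 with hl | hl | hl
      · have := Nat.pow_le_pow_right (show 0 < 2 by norm_num)
          (show 2 * u'.1 + 2 ≤ 2 * u.1 + 2 by omega)
        omega
      · rw [hl] at hu'; omega
      · have := Nat.pow_le_pow_right (show 0 < 2 by norm_num)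
          (show 2 * u.1 + 3 ≤ 2 * u'.1 + 1 by omega)
        rw [show 2 * u.1 + 3 = (2 * u.1 + 2) + 1 from rfl, pow_succ] at this
        have h2 : 2 ≤ 2 ^ (2 * u.1 + 2) := Nat.le_self_pow (by omega) 2
        omega
    simp [F, kerElt, h1, h2]
  have hsum : ∀ {a b i j : ℕ}, a ≤ 4 * k → b ≤ 4 * k → i ≤ 4 * k → j ≤ 4 * k → i ≠ j →
      ((2 ^ a : ℕ) : ZMod n) + ((2 ^ j : ℕ) : ZMod n) =
        ((2 ^ b : ℕ) : ZMod n) + ((2 ^ i : ℕ) : ZMod n) → a = i ∧ b = j := by
    intro a b i j ha hb hi hj hij e
    refine pow_two_add_eq hij ?_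
    have h2 : ∀ {a b}, a ≤ 4 * k → b ≤ 4 * k → 2 ^ a + 2 ^ b < n := by
      intro a b ha hb
      have h1 := Nat.pow_le_pow_right (show 0 < 2 by norm_num) ha
      have h2 := Nat.pow_le_pow_right (show 0 < 2 by norm_num) hb
      have h3 : 0 < 2 ^ (4 * k) := by positivity
      have h4 : n = 2 ^ (4 * k) * 8 := by simp [n, pow_succ, mul_assoc]
      omega
    have e' : ((2 ^ a + 2 ^ j : ℕ) : ZMod n) = ((2 ^ b + 2 ^ i : ℕ) : ZMod n) := by
      push_cast; push_cast at e; exact e
    have := congrArg ZMod.val e'
    rwa [ZMod.val_natCast_of_lt (h2 ha hj), ZMod.val_natCast_of_lt (h2 hb hi)] at this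
  have hz : ∀ p q t : Fin (2 * k), p ≠ q → p ≠ t → q ≠ t →
      Pi.mulSingle (r (pt p)) ⁅⁅gen p, gen q⁆, gen t⁆ ∈ M := by
    intro p q t hpq hpt hqt
    let d := pt p - pt q
    let d' := pt p - pt t
    have hm : ⁅⁅F, sh n d F⁆, sh n d' F⁆ ∈ M := by
      simp only [commutatorElement_def]
      have h1 := hsh d F hF
      have h2 := hsh d' F hF
      have h3 := mul_mem (mul_mem (mul_mem hF h1) (inv_mem hF)) (inv_mem h1)
      exact mul_mem (mul_mem (mul_mem h3 h2) (inv_mem h3)) (inv_mem h2)
    convert hm using 1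
    funext y
    have hval' : ∀ e, sh n e F y = F (r (-e) * y) := fun _ => rfl
    change _ = ⁅⁅F y, sh n d F y⁆, sh n d' F y⁆
    have hexp : ∀ {p q : Fin (2 * k)}, p ≠ q → 2 * p.1 + 2 ≠ 2 * q.1 + 2 := fun hne e =>
      hne (Fin.ext (by omega))
    by_cases h0 : F y = 1 ∨ sh n d F y = 1 ∨ sh n d' F y = 1
    · have hy : y ≠ r (pt p) ∨ ⁅⁅gen p, gen q⁆, gen t⁆ = 1 := by
        by_contra hc
        simp only [not_or, not_not] at hc
        obtain ⟨rfl, hc⟩ := hc
        rw [hval', hval', r_mul_r, r_mul_r,
          show -d + pt p = pt q by simp [d], show -d' + pt p = pt t by simp [d'],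
          hval, hval, hval] at h0
        rcases h0 with h0 | h0 | h0 <;> exact hc (by simp [h0, commutatorElement_def])
      have hr : ⁅⁅F y, sh n d F y⁆, sh n d' F y⁆ = 1 := by
        rcases h0 with h0 | h0 | h0 <;> simp [h0, commutatorElement_def]
      rw [hr]
      rcases hy with hy | hy
      · rw [Pi.mulSingle_eq_of_ne hy]
      · rw [hy, Pi.mulSingle_one]; rfl
    · simp only [not_or] at h0
      obtain ⟨hy0, hy1, hy2⟩ := h0
      cases y with
      | r x =>
        rw [hval', r_mul_r] at hy1
        obtain ⟨e₀, he₀, hx⟩ := hsupp x hy0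
        obtain ⟨e₁, he₁, hx₁⟩ := hsupp _ hy1
        obtain ⟨rfl, -⟩ := hsum (i := 2 * p.1 + 2) (j := 2 * q.1 + 2) he₀ he₁ (by omega)
          (by omega) (hexp hpq) (by
            change _ + pt q = _ + pt p
            rw [← hx, ← hx₁]; simp only [d]; ring)
        have hxp : x = pt p := hx
        subst hxp
        rw [Pi.mulSingle_eq_same, hval', hval', r_mul_r, r_mul_r,
          show -d + pt p = pt q by simp [d], show -d' + pt p = pt t by simp [d'],
          hval, hval, hval]
      | sr x =>
        exfalso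
        rw [hval', r_mul_sr] at hy1 hy2
        obtain ⟨e₀, he₀, hx⟩ := hsupp' x hy0
        obtain ⟨e₁, he₁, hx₁⟩ := hsupp' _ hy1
        obtain ⟨e₂, he₂, hx₂⟩ := hsupp' _ hy2
        obtain ⟨-, hq⟩ := hsum (i := 2 * p.1 + 2) (j := 2 * q.1 + 2) he₁ he₀ (by omega)
          (by omega) (hexp hpq) (by
            change _ + pt q = _ + pt p
            rw [← hx, ← hx₁]; simp only [d]; ring)
        obtain ⟨-, ht⟩ := hsum (i := 2 * p.1 + 2) (j := 2 * t.1 + 2) he₂ he₀ (by omega)
          (by omega) (hexp hpt) (by
            change _ + pt t = _ + pt p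
            rw [← hx, ← hx₂]; simp only [d']; ring)
        exact hexp hqt (hq.symm.trans ht)
  -- the coordinate subgroup
  let N : Subgroup G := M.comap (MonoidHom.mulSingle (fun _ => G) (r 0 : DihedralGroup n))
  have hmove : ∀ (d x : ZMod n) (z : G), Pi.mulSingle (r x) z ∈ M →
      Pi.mulSingle (r (d + x)) z ∈ M := by
    intro d x z hz
    convert hsh d _ hz using 1
    funext y
    simp only [sh, Pi.mulSingle_apply]
    congr 1
    rw [← r_mul_r, ← inv_r, inv_mul_eq_iff_eq_mul]
  have hNnormal : N.Normal := by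
    refine ⟨fun z hz y => ?_⟩
    have key : ∀ i : Fin k, ∀ z ∈ N, g i * z * (g i)⁻¹ ∈ N ∧ (g i)⁻¹ * z * g i ∈ N := by
      intro i z hz
      let u : Fin (2 * k) := ⟨2 * i.1, by omega⟩
      have hu : gen u = g i := by simp [gen, u]
      have hF' := hsh (-pt u) F hF
      have hF'0 : sh n (-pt u) F (r 0) = g i := by
        simp [sh, r_mul_r, hval, hu]
      have he : ∀ c : DihedralGroup n → G,
          c * Pi.mulSingle (r 0) z * c⁻¹ = Pi.mulSingle (r 0) (c (r 0) * z * (c (r 0))⁻¹) := by
        intro c
        funext y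
        by_cases hy : y = r 0
        · subst hy; simp
        · simp [-r_zero, Pi.mulSingle_eq_of_ne hy]
      constructor
      · change Pi.mulSingle (r 0) _ ∈ M
        rw [← hF'0, ← he]
        exact mul_mem (mul_mem hF' hz) (inv_mem hF')
      · change Pi.mulSingle (r 0) _ ∈ M
        have := mul_mem (mul_mem (inv_mem hF') hz) hF'
        have h2 := he (sh n (-pt u) F)⁻¹
        simp only [inv_inv, Pi.inv_apply, hF'0] at h2
        rw [← h2]
        exact this
    have hy : y ∈ Subgroup.closure (Set.range g) := hg ▸ Subgroup.mem_top y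
    induction hy using Subgroup.closure_induction'' generalizing z with
    | mem x hx => obtain ⟨i, rfl⟩ := hx; exact (key i z hz).1
    | inv_mem x hx =>
      obtain ⟨i, rfl⟩ := hx
      simpa using (key i z hz).2
    | one => simpa using hz
    | mul x y _ _ hx hy => simpa [mul_assoc] using hx _ (hy _ hz)
  have htriple : ∀ i j l, ⁅⁅g i, g j⁆, g l⁆ ∈ N := by
    intro i j l
    rcases eq_or_ne i j with rfl | hij
    · simp [commutatorElement_def]
    · have hp := hz ⟨2 * i.1, by omega⟩ ⟨2 * j.1, by omega⟩ ⟨2 * l.1 + 1, by omega⟩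
        (fun e => hij (Fin.ext (by simpa using congrArg Fin.val e)))
        (fun e => by have := congrArg Fin.val e; simp at this; omega)
        (fun e => by have := congrArg Fin.val e; simp at this; omega)
      have := hmove (-(pt ⟨2 * i.1, by omega⟩)) _ _ hp
      rw [neg_add_cancel] at this
      change Pi.mulSingle (r 0) _ ∈ M
      simpa [gen, Nat.mul_add_div] using this
  have : Finite (G ⧸ N) := by
    refine finite_of_triple (fun i => (g i : G ⧸ N)) ?_ ?_ ?_
    · change Subgroup.closure (Set.range (QuotientGroup.mk' N ∘ g)) = ⊤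
      rw [Set.range_comp, ← MonoidHom.map_closure, hg,
        Subgroup.map_top_of_surjective _ (QuotientGroup.mk'_surjective N)]
    · intro x
      obtain ⟨y, rfl⟩ := QuotientGroup.mk'_surjective N x
      exact (QuotientGroup.mk' N).isOfFinOrder (hper y)
    · intro i j l
      change ⁅⁅QuotientGroup.mk' N (g i), QuotientGroup.mk' N (g j)⁆, QuotientGroup.mk' N (g l)⁆ = 1
      rw [← map_commutatorElement, ← map_commutatorElement]
      exact (QuotientGroup.eq_one_iff _).2 (htriple i j l)
  -- every coordinate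
  have hcoord : ∀ (y : DihedralGroup n) (z : G), z ∈ N → Pi.mulSingle y z ∈ M := by
    have hr : ∀ (x : ZMod n) (z : G), z ∈ N → Pi.mulSingle (r x) z ∈ M := fun x z hz => by
      simpa using hmove x 0 z hz
    intro y z hz
    cases y with
    | r x => exact hr x z hz
    | sr x =>
      let c := a.left (sr x)
      have hz' : c⁻¹ * z * c ∈ N := by simpa using hNnormal.conj_mem z hz c⁻¹
      have h1 := mul_mem (mul_mem ha (hr x _ hz')) (inv_mem ha)
      rw [invol_conj] at h1
      change inlN n _ ∈ S
      convert h1 using 2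
      funext y
      by_cases hy : y = sr x
      · subst hy
        simp [c, a, sr_mul_sr, mul_assoc]
      · have : sr 0 * y ≠ r x := fun e => hy (by
          cases y <;> simp_all [sr_mul_r, sr_mul_sr])
        simp [Pi.mulSingle_eq_of_ne hy, Pi.mulSingle_eq_of_ne this]
  let q : (DihedralGroup n → G) →* (DihedralGroup n → G ⧸ N) :=
    Pi.monoidHom fun y => (QuotientGroup.mk' N).comp (Pi.evalMonoidHom (fun _ => G) y)
  have hqker : q.ker ≤ M := by
    intro f hf
    refine Submonoid.pi_mem_of_mulSingle_mem f fun y => hcoord y _ ?_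
    exact (QuotientGroup.eq_one_iff _).1 (congrFun hf y)
  have hrange : (inlN (G := G) n).range.index ≠ 0 := by
    rw [range_inlN, Subgroup.index_ker]
    exact Nat.card_pos.ne'
  have hq : q.ker.index ≠ 0 := by
    rw [Subgroup.index_ker]
    exact Nat.card_pos.ne'
  have hle : q.ker.map (inlN n) ≤ S := Subgroup.map_le_iff_le_comap.2 hqker
  constructor
  intro h0
  have hd := Subgroup.index_dvd_of_le hle
  rw [h0, Subgroup.index_map_of_injective _ (inlN_injective n)] at hd
  exact mul_ne_zero hq hrange (Nat.eq_zero_of_zero_dvd hd)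

/-- The wreath product is finitely presented. -/
theorem fp_W (G : Type u) [Group G] [Group.IsFinitelyPresented G] (n : ℕ) [NeZero n] :
    Group.IsFinitelyPresented (W G n) := by
  have := fp_pi G (DihedralGroup n)
  have hr : Function.Surjective (RegularWreathProduct.rightHom : W G n →* DihedralGroup n) :=
    fun y => ⟨RegularWreathProduct.inl y, rfl⟩
  have : Group.IsFinitelyPresented
      (RegularWreathProduct.rightHom : W G n →* DihedralGroup n).ker :=
    Group.IsFinitelyPresented.equiv
      ((MonoidHom.ofInjective (inlN_injective n)).trans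
        (MulEquiv.subgroupCongr (range_inlN n)))
  exact fp_extension _ hr

lemma pow_card_mem_range {G : Type u} [Group G] (n : ℕ) [NeZero n] (x : W G n) :
    x ^ Nat.card (DihedralGroup n) ∈ (inlN (G := G) n).range := by
  rw [range_inlN, MonoidHom.mem_ker, map_pow]
  exact pow_card_eq_one'

lemma periodic_W {G : Type u} [Group G] (hper : Periodic G) (n : ℕ) [NeZero n] :
    Periodic (W G n) := by
  classical
  intro x
  obtain ⟨f, hf⟩ := pow_card_mem_range n x
  have hfin : IsOfFinOrder f := by
    refine isOfFinOrder_iff_pow_eq_one.2 ⟨∏ y, orderOf (f y),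
      Finset.prod_pos fun y _ => (hper (f y)).orderOf_pos, funext fun y => ?_⟩
    exact orderOf_dvd_iff_pow_eq_one.1 (Finset.dvd_prod_of_mem _ (Finset.mem_univ y))
  exact IsOfFinOrder.of_pow (n := Nat.card (DihedralGroup n))
    (hf ▸ (inlN n).isOfFinOrder hfin) Nat.card_pos.ne'

/-- The reduction: a finitely presented infinite periodic group yields one generated by an
involution and one further element; exponent bounds are preserved up to a factor. -/
theorem reduction {G : Type u} [Group G] [Group.IsFinitelyPresented G] (hper : Periodic G)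
    [Infinite G] :
    ∃ (S : Type) (_ : Group S), Group.IsFinitelyPresented S ∧ Periodic S ∧ Infinite S ∧
      (∃ a b : S, a * a = 1 ∧ Subgroup.closure {a, b} = ⊤) ∧
      ∀ e : ℕ, 1 ≤ e → (∀ g : G, g ^ e = 1) → ∃ e' : ℕ, 1 ≤ e' ∧ ∀ s : S, s ^ e' = 1 := by
  obtain ⟨n, _, a, b, ha, hfi⟩ := exists_two_gen hper
  have := fp_W G n
  let S := Subgroup.closure {a, b}
  have hS : Group.IsFinitelyPresented S := fp_subgroup S
  have hinf : Infinite (W G n) :=
    Infinite.of_injective _ (inlN_injective (G := G) n)
  have hSinf : Infinite S := not_finite_iff_infinite.1 fun _ => by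
    have : Finite (W G n ⧸ S) := Subgroup.finiteIndex_iff_finite_quotient.1 hfi
    exact (Finite.of_subgroup_quotient S).false
  obtain ⟨m, rels, hrels, ⟨θ⟩⟩ := Group.IsFinitelyPresented.exists_mulEquiv_presentedGroup (G := S)
  refine ⟨PresentedGroup rels, inferInstance, Group.IsFinitelyPresented.equiv θ, ?_,
    Infinite.of_injective _ θ.injective,
    ⟨θ ⟨a, Subgroup.subset_closure (by simp)⟩, θ ⟨b, Subgroup.subset_closure (by simp)⟩,
      ?_, ?_⟩, ?_⟩
  · intro s
    obtain ⟨x, rfl⟩ := θ.surjective s
    refine θ.toMonoidHom.isOfFinOrder ?_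
    exact (Submonoid.isOfFinOrder_coe (H := S.toSubmonoid) (x := x)).1 (periodic_W hper n x.1)
  · rw [← map_mul, ← map_one θ]
    exact congrArg θ (Subtype.ext ha)
  · rw [eq_top_iff]
    intro s hs
    clear hs
    obtain ⟨⟨x, hx⟩, rfl⟩ := θ.surjective s
    induction hx using Subgroup.closure_induction with
    | mem x hx =>
      refine Subgroup.subset_closure ?_
      rcases hx with rfl | rfl <;> simp
    | one => exact (map_one θ).symm ▸ one_mem _
    | mul x y hx hy ihx ihy =>
      have e : θ ⟨x * y, mul_mem hx hy⟩ = θ ⟨x, hx⟩ * θ ⟨y, hy⟩ := by rw [← map_mul]; rfl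
      rw [e]; exact mul_mem ihx ihy
    | inv x hx ihx =>
      have e : θ ⟨x⁻¹, inv_mem hx⟩ = (θ ⟨x, hx⟩)⁻¹ := by rw [← map_inv]; rfl
      rw [e]; exact inv_mem ihx
  · intro e he hexp
    refine ⟨Nat.card (DihedralGroup n) * e, Nat.mul_pos Nat.card_pos he, fun s => ?_⟩
    obtain ⟨x, rfl⟩ := θ.surjective s
    rw [← map_pow, ← map_one θ]
    refine congrArg θ (Subtype.ext ?_)
    obtain ⟨f, hf⟩ := pow_card_mem_range n x.1
    rw [SubgroupClass.coe_pow, pow_mul, ← hf, ← map_pow,
      show f ^ e = 1 from funext fun y => hexp (f y), map_one]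
    rfl

end Vale.Agent.P192
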