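import Vale.Agent.P196.Glue

/-!
The infinite cyclic cover of the glued action: gluing two boundaries of an exhaustion gives a
finite-index subgroup with infinite abelianisation.
-/

namespace Vale.Agent.P192

open Vale.Agent.P196
open Vale.Agent.P196.Glue

variable {G : Type*} [Group G]

/-- Some finite-index subgroup maps onto an infinite cyclic group. -/
def VirtZ (G : Type*) [Group G] : Prop :=
  ∃ H : Subgroup G, H.FiniteIndex ∧ ∃ χ : H →* Multiplicative ℤ, χ ≠ 1

/-- A periodic group does not virtually map onto the integers. -/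
theorem not_virtZ_of_torsion (h : ∀ g : G, IsOfFinOrder g) : ¬ VirtZ G := by
  rintro ⟨H, -, χ, hχ⟩
  refine hχ (MonoidHom.ext fun x => ?_)
  obtain ⟨n, hn, hn1⟩ := (h x.1).exists_pow_eq_one
  have hx : x ^ n = 1 := Subtype.ext (by simpa using hn1)
  have := congrArg Multiplicative.toAdd (congrArg χ hx)
  simp [map_pow, hn.ne'] at this
  exact Multiplicative.toAdd.injective (by simpa using this)

/-- An action on `M × ℤ` commuting with translations in which every point can be moved one step. -/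
theorem virtZ_of_shift {M : Type*} [Finite M] (y₀ : M) (A : G →* Equiv.Perm (M × ℤ))
    (hA : ∀ g p (t : ℤ), A g (p.1, p.2 + t) = ((A g p).1, (A g p).2 + t)) (ε : ℤ) (hε : ε ≠ 0)
    (hesc : ∀ y : M, ∃ (g : G) (y' : M), A g (y, 0) = (y', ε)) : VirtZ G := by
  classical
  have hA' : ∀ g (y : M) (k : ℤ), A g (y, k) = ((A g (y, 0)).1, (A g (y, 0)).2 + k) := fun g y k => by
    simpa using hA g (y, 0) k
  let act : G → M → M := fun g y => (A g (y, 0)).1
  letI : MulAction G M :=
    { smul := act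
      one_smul := fun y => by show (A 1 (y, 0)).1 = y; simp
      mul_smul := fun g h y => by
        show (A (g * h) (y, 0)).1 = (A g ((A h (y, 0)).1, 0)).1
        rw [map_mul, Equiv.Perm.mul_apply]
        conv_lhs => rw [show A h (y, 0) = ((A h (y, 0)).1, (A h (y, 0)).2) from rfl, hA'] }
  -- iterate the one-step moves
  choose g y' hg using hesc
  have hiter : ∀ n : ℕ, ∃ h : G, ∀ k, A h (y₀, k) = (y'^[n] y₀, k + n * ε) := by
    intro n
    induction n with
    | zero => exact ⟨1, fun k => by simp⟩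
    | succ n ih =>
      obtain ⟨h, hh⟩ := ih
      refine ⟨g (y'^[n] y₀) * h, fun k => ?_⟩
      rw [map_mul, Equiv.Perm.mul_apply, hh, hA', hg, Function.iterate_succ_apply']
      refine Prod.ext rfl ?_
      push_cast
      ring
  obtain ⟨a, b, hne, hab⟩ := Finite.exists_ne_map_eq_of_infinite (fun n : ℕ => y'^[n] y₀)
  obtain ⟨h1, hh1⟩ := hiter a
  obtain ⟨h2, hh2⟩ := hiter b
  set z := y'^[a] y₀ with hz
  haveI : Finite (MulAction.orbit G z) := Subtype.finite
  haveI : Finite (G ⧸ MulAction.stabilizer G z) :=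
    Finite.of_equiv _ (MulAction.orbitEquivQuotientStabilizer G z)
  refine ⟨MulAction.stabilizer G z, Subgroup.finiteIndex_of_finite_quotient,
    { toFun := fun x => Multiplicative.ofAdd (A x.1 (z, 0)).2
      map_one' := by simp
      map_mul' := fun u v => by
        have hv : (A v.1 (z, 0)).1 = z := v.2
        show Multiplicative.ofAdd (A (u.1 * v.1) (z, 0)).2 = _
        rw [map_mul, Equiv.Perm.mul_apply,
          show A v.1 (z, 0) = (z, (A v.1 (z, 0)).2) from Prod.ext hv rfl, hA', ← ofAdd_add] }, ?_⟩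
  intro hχ
  have key : A (h2 * h1⁻¹) (z, 0) = (z, ((b : ℤ) - a) * ε) := by
    have e1 : A h1⁻¹ (z, 0) = (y₀, -(a * ε)) := by
      rw [map_inv, Equiv.Perm.inv_def, Equiv.symm_apply_eq, hh1, neg_add_cancel]
    rw [map_mul, Equiv.Perm.mul_apply, e1, hh2, hz]
    refine Prod.ext hab.symm ?_
    ring
  have hmem : h2 * h1⁻¹ ∈ MulAction.stabilizer G z := congrArg Prod.fst key
  have h0' := congrArg Multiplicative.toAdd (DFunLike.congr_fun hχ ⟨_, hmem⟩)
  have h0 : (A (h2 * h1⁻¹) (z, 0)).2 = 0 := h0'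
  rw [key] at h0
  rcases mul_eq_zero.1 h0 with h | h
  · exact hne (by omega)
  · exact hε h

variable {X : Type*} [MulAction G X] {d : ℕ} {φ : FreeGroup (Fin d) →* G} {L : ℕ}
  {F F' : Finset X} (Γ : Glue φ L F F')

/-- The number of turns made at a point. -/
noncomputable def off (F F' : Finset X) (z : X) : ℤ := by
  classical exact if z ∈ F then -1 else if z ∉ F' then 1 else 0

theorem off_in {z : X} (h : z ∈ F) : off F F' z = -1 := by simp [off, h]

theorem off_mid {z : X} (h1 : z ∉ F) (h2 : z ∈ F') : off F F' z = 0 := by simp [off, h1, h2]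

theorem off_out {z : X} (h1 : z ∉ F) (h2 : z ∉ F') : off F F' z = 1 := by simp [off, h1, h2]

/-- The turns made by a word. -/
noncomputable def wind : List (Fin d × Bool) → X → ℤ
  | [], _ => 0
  | l :: w, y => off F F' (ev φ [l] • Γ.run w y) + wind w y

theorem wind_eq {y : X} (h1 : y ∉ F) (h2 : y ∈ F') :
    ∀ w : List (Fin d × Bool), w.length ≤ L + 2 → wind Γ w y = off F F' (ev φ w • y) := by
  intro w
  induction w with
  | nil => intro _; simp [wind, ev_nil, off_mid h1 h2]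
  | cons l w ih =>
    intro hw
    simp only [List.length_cons] at hw
    rw [wind, ih (by omega), Γ.run_eq h1 h2 w (by omega), ev_cons φ l w, mul_smul]
    by_cases hin : ev φ w • y ∈ F
    · obtain ⟨hp, hlp⟩ := near_in (L := L) h1 (w := w) (by omega) hin l
      rw [Γ.adj_in hin, ← Γ.pi_step l _ hp hlp, off_in hin]
      by_cases hz : ev φ [l] • ev φ w • y ∈ F
      · rw [off_mid (Γ.nbd'_not (Γ.pi_mem _ hlp).1) ((Γ.pi_mem _ hlp).2.2.1 hz), off_in hz]
        rfl
      · rw [off_mid hz (Γ.nbd_sub hlp), off_out (Γ.nbd'_not (Γ.pi_mem _ hlp).1)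
          fun h => hz ((Γ.pi_mem _ hlp).2.2.2 h)]
        rfl
    · by_cases hout : ev φ w • y ∈ F'
      · rw [Γ.adj_mid hin hout, off_mid hin hout, add_zero]
      · obtain ⟨hp, hlp⟩ := near_out (L := L) h2 (w := w) (by omega) hout l
        rw [Γ.adj_out hout, ← Γ.rho_step l _ hp hlp, off_out hin hout]
        by_cases hz : ev φ [l] • ev φ w • y ∈ F'
        · rw [off_in ((Γ.rho_mem _ hlp).2.2.2 hz), off_mid (Γ.nbd'_not hlp) hz]
          rfl
        · rw [off_mid (fun h => hz ((Γ.rho_mem _ hlp).2.2.1 h))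
              (Γ.nbd_sub (Γ.rho_mem _ hlp).1), off_out (Γ.nbd'_not hlp) hz]
          rfl

/-- One letter on the cover. -/
noncomputable def cstep (l : Fin d × Bool) (p : Γ.Mid × ℤ) : Γ.Mid × ℤ :=
  (Γ.stepF l p.1, p.2 + off F F' (ev φ [l] • p.1.1))

theorem cstep_inv (l : Fin d × Bool) (p : Γ.Mid × ℤ) : cstep Γ (inl' l) (cstep Γ l p) = p := by
  refine Prod.ext (Γ.stepF_inv l p.1) ?_
  have h := wind_eq Γ p.1.2.1 p.1.2.2 [inl' l, l] (by simp)
  have e : ev φ [inl' l, l] = 1 := by rw [ev_cons, ev_inl', inv_mul_cancel]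
  rw [e, one_smul, off_mid p.1.2.1 p.1.2.2] at h
  simp only [wind, Glue.run, add_zero] at h
  simp only [cstep, Glue.stepF]
  omega

/-- One generator on the cover. -/
noncomputable def cgen (i : Fin d) : Equiv.Perm (Γ.Mid × ℤ) where
  toFun := cstep Γ (i, true)
  invFun := cstep Γ (i, false)
  left_inv p := cstep_inv Γ (i, true) p
  right_inv p := cstep_inv Γ (i, false) p

/-- The action of the free group on the cover. -/
noncomputable def cpsi : FreeGroup (Fin d) →* Equiv.Perm (Γ.Mid × ℤ) := FreeGroup.lift (cgen Γ)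

theorem cpsi_letter (l : Fin d × Bool) (p : Γ.Mid × ℤ) :
    cpsi Γ (FreeGroup.mk [l]) p = cstep Γ l p := by
  obtain ⟨i, b⟩ := l
  cases b
  · have : FreeGroup.mk [(i, false)] = (FreeGroup.of i)⁻¹ := by
      simp [FreeGroup.of, FreeGroup.inv_mk, FreeGroup.invRev]
    rw [this, map_inv, cpsi, FreeGroup.lift_apply_of]
    rfl
  · rw [show FreeGroup.mk [(i, true)] = FreeGroup.of i from rfl, cpsi, FreeGroup.lift_apply_of]
    rfl

theorem cpsi_mk (w : List (Fin d × Bool)) (p : Γ.Mid × ℤ) :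
    ((cpsi Γ (FreeGroup.mk w) p).1 : X) = Γ.run w p.1.1 ∧
      (cpsi Γ (FreeGroup.mk w) p).2 = p.2 + wind Γ w p.1.1 := by
  induction w with
  | nil => simp [cpsi, wind, Glue.run, ← FreeGroup.one_eq_mk]
  | cons l w ih =>
    rw [show l :: w = [l] ++ w from rfl, ← FreeGroup.mul_mk, map_mul, Equiv.Perm.mul_apply,
      cpsi_letter]
    constructor
    · show Γ.adj (ev φ [l] • _) = Γ.adj (ev φ [l] • Γ.run w p.1.1)
      rw [ih.1]
    · show _ + off F F' (ev φ [l] • _) = _ + (off F F' (ev φ [l] • Γ.run w p.1.1) + wind Γ w p.1.1)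
      rw [ih.1, ih.2]
      ring

theorem cpsi_shift (u : FreeGroup (Fin d)) (p : Γ.Mid × ℤ) (t : ℤ) :
    cpsi Γ u (p.1, p.2 + t) = ((cpsi Γ u p).1, (cpsi Γ u p).2 + t) := by
  rw [← FreeGroup.mk_toWord (x := u)]
  obtain ⟨a1, a2⟩ := cpsi_mk Γ (FreeGroup.toWord u) (p.1, p.2 + t)
  obtain ⟨b1, b2⟩ := cpsi_mk Γ (FreeGroup.toWord u) p
  refine Prod.ext (Subtype.ext (a1.trans b1.symm)) ?_
  rw [a2, b2]
  ring

/-- The relation joined by a generator or its inverse outside `F`. -/
def Adj' (φ : FreeGroup (Fin d) →* G) (F : Finset X) (a b : X) : Prop :=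
  ∃ l : Fin d × Bool, b = ev φ [l] • a ∧ a ∉ F ∧ b ∉ F

/-- If every middle point has a path which avoids one side and leaves the middle, the group
virtually maps onto `ℤ`. -/
theorem virtZ_of_glue (hφ : Function.Surjective φ) {R : Set (FreeGroup (Fin d))}
    (hker : Subgroup.normalClosure R = φ.ker) (hL : ∀ r ∈ R, (FreeGroup.toWord r).length ≤ L)
    (Γ : Glue φ L F F') {y₀ : X} (h1 : y₀ ∉ F) (h2 : y₀ ∈ F') (ε : ℤ) (hε : ε ≠ 0)
    (hesc : ∀ y : Γ.Mid, ∃ (w : List (Fin d × Bool)), wind Γ w y.1 = ε) : VirtZ G := by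
  have hkill : φ.ker ≤ (cpsi Γ).ker := by
    rw [← hker]
    refine Subgroup.normalClosure_le_normal fun r hr => ?_
    rw [SetLike.mem_coe, MonoidHom.mem_ker, ← FreeGroup.mk_toWord (x := r)]
    have h1 : ev φ (FreeGroup.toWord r) = 1 := by
      rw [ev, FreeGroup.mk_toWord, ← MonoidHom.mem_ker, ← hker]
      exact Subgroup.subset_normalClosure hr
    refine Equiv.ext fun p => ?_
    obtain ⟨a1, a2⟩ := cpsi_mk Γ (FreeGroup.toWord r) p
    have hlen : (FreeGroup.toWord r).length ≤ L + 2 := (hL r hr).trans (Nat.le_add_right _ _)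
    rw [Γ.run_eq p.1.2.1 p.1.2.2 _ hlen, h1, one_smul, Γ.adj_mid p.1.2.1 p.1.2.2] at a1
    rw [wind_eq Γ p.1.2.1 p.1.2.2 _ hlen, h1, one_smul, off_mid p.1.2.1 p.1.2.2, add_zero] at a2
    exact Prod.ext (Subtype.ext a1) a2
  let A := φ.liftOfSurjective hφ ⟨cpsi Γ, hkill⟩
  have hAe : ∀ u, A (φ u) = cpsi Γ u := fun u => by
    simp only [A]
    exact MonoidHom.liftOfRightInverse_comp_apply φ _ _ ⟨cpsi Γ, hkill⟩ u
  haveI : Finite Γ.Mid := Finite.of_injective (fun y : Γ.Mid => (⟨y.1, y.2.2⟩ : {y // y ∈ F'}))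
    fun a b h => Subtype.ext (Subtype.mk.injEq .. ▸ h)
  refine virtZ_of_shift (⟨y₀, h1, h2⟩ : Γ.Mid) A (fun g p t => ?_) ε hε (fun y => ?_)
  · obtain ⟨u, rfl⟩ := hφ g
    rw [hAe]
    exact cpsi_shift Γ u p t
  · obtain ⟨w, hw⟩ := hesc y
    refine ⟨φ (FreeGroup.mk w), (cpsi Γ (FreeGroup.mk w) (y, 0)).1, ?_⟩
    rw [hAe]
    refine Prod.ext rfl ?_
    rw [(cpsi_mk Γ w (y, 0)).2, hw, zero_add]

/-- A path avoiding `F` which ends outside `F'` gives a word with one turn. -/
theorem wind_up {y z : X} (h2 : y ∈ F') (h : Relation.ReflTransGen (Adj' φ F) y z) :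
    (∃ w, wind Γ w y = 1) ∨ (z ∈ F' ∧ ∃ w, wind Γ w y = 0 ∧ Γ.run w y = z) := by
  induction h with
  | refl => exact Or.inr ⟨h2, [], rfl, rfl⟩
  | @tail b c _ hbc ih =>
    rcases ih with ih | ⟨hb, w, hw, hr⟩
    · exact Or.inl ih
    · obtain ⟨l, rfl, hbF, hcF⟩ := hbc
      by_cases hc : ev φ [l] • b ∈ F'
      · refine Or.inr ⟨hc, l :: w, ?_, ?_⟩
        · rw [wind, hr, off_mid hcF hc, hw]; rfl
        · rw [Glue.run, hr, Γ.adj_mid hcF hc]
      · refine Or.inl ⟨l :: w, ?_⟩
        rw [wind, hr, off_out hcF hc, hw]; rfl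

end Vale.Agent.P192
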